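import Vale.Agent.P166.Press

open MeasureTheory Matrix Set Function

namespace Vale.Agent.P166

variable {N : ℕ}

theorem integral_sq_sub {α : Type*} [MeasurableSpace α] {μ : Measure α} [IsProbabilityMeasure μ]
    {f : α → ℝ} (i1 : Integrable f μ) (i2 : Integrable (fun x => f x ^ 2) μ) (c : ℝ) :
    ∫ x, (f x - c) ^ 2 ∂μ = (∫ x, f x ^ 2 ∂μ) - 2 * c * (∫ x, f x ∂μ) + c ^ 2 := by
  have e : (fun x => (f x - c) ^ 2) = fun x => (f x ^ 2 - 2 * c * f x) + c ^ 2 := by
    funext x; ring
  rw [e, integral_add (f := fun x => f x ^ 2 - 2 * c * f x) (g := fun _ => c ^ 2)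
      (i2.sub (i1.const_mul (2 * c))) (integrable_const _),
    integral_sub (f := fun x => f x ^ 2) (g := fun x => 2 * c * f x) i2 (i1.const_mul (2 * c)),
    integral_const_mul, integral_const]
  simp

theorem sq_integral_le {α : Type*} [MeasurableSpace α] {μ : Measure α} [IsProbabilityMeasure μ]
    {f : α → ℝ} (hf : Measurable f) (B : ℝ) (hb : ∀ x, |f x| ≤ B) :
    (∫ x, f x ∂μ) ^ 2 ≤ ∫ x, f x ^ 2 ∂μ := by
  have i2 : Integrable (fun x => f x ^ 2) μ :=
    integrable_of_abs_le (hf.pow_const 2) (B ^ 2) fun x => by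
      rw [abs_pow]; exact pow_le_pow_left₀ (abs_nonneg _) (hb x) 2
  have h : 0 ≤ ∫ x, (f x - ∫ y, f y ∂μ) ^ 2 ∂μ := integral_nonneg fun x => sq_nonneg _
  rw [integral_sq_sub (integrable_of_abs_le hf B hb) i2] at h
  nlinarith

theorem exists_abs_bound {f : OG N → ℝ} (hf : Continuous f) : ∃ B, ∀ x, |f x| ≤ B := by
  obtain ⟨B, hB⟩ := isCompact_univ.exists_bound_of_continuousOn hf.continuousOn
  exact ⟨B, fun x => hB x (Set.mem_univ x)⟩

theorem abs_integral_le_of {α : Type*} [MeasurableSpace α] {μ : Measure α}
    [IsProbabilityMeasure μ] {f : α → ℝ} (B : ℝ) (hb : ∀ x, |f x| ≤ B) :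
    |∫ x, f x ∂μ| ≤ B := by
  have h := norm_integral_le_of_norm_le_const (μ := μ)
    (Filter.Eventually.of_forall fun x => (Real.norm_eq_abs (f x)).le.trans (hb x))
  simpa using h

theorem measurable_og {α : Type*} [MeasurableSpace α] {f : α → OG N}
    (h : ∀ i j, Measurable fun a => (f a : Matrix (Fin N) (Fin N) ℝ) i j) : Measurable f := by
  have hcl : Topology.IsClosedEmbedding
      (fun U : OG N => fun p : Fin N × Fin N => (U : Matrix (Fin N) (Fin N) ℝ) p.1 p.2) := by
    refine Continuous.isClosedEmbedding ?_ ?_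
    · exact continuous_pi fun p =>
        (continuous_apply_apply p.1 p.2).comp continuous_subtype_val
    · intro U V hUV
      exact Subtype.ext (Matrix.ext fun i j => congrFun hUV (i, j))
  exact hcl.measurableEmbedding.measurable_comp_iff.1 (measurable_pi_iff.2 fun p => h p.1 p.2)

theorem measurable_act {α : Type*} [MeasurableSpace α] {f : α → OG N} (hf : Measurable f)
    (x : Fin N → ℝ) : Measurable fun a => act (f a) x :=
  (continuous_act x).measurable.comp hf

theorem measurable_refl {α : Type*} [MeasurableSpace α] {w : α → Fin N → ℝ} (hw : Measurable w) :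
    Measurable fun a => refl (w a) := by
  refine measurable_og fun i j => ?_
  simp only [refl, refMat, Matrix.sub_apply, Matrix.smul_apply, Matrix.vecMulVec_apply,
    smul_eq_mul, dotProduct]
  fun_prop

/-- A rotation carrying `ev k` to `act g (ev k)`, made of at most two reflections. -/
noncomputable def house (k : Fin N) (g : OG N) : OG N :=
  if act g (ev k) k ≤ 0 then refl (ev k - act g (ev k))
  else refl (ev k + act g (ev k)) * refl (ev k)

/-- The step of the chain. -/
noncomputable def step (k : Fin N) (g : OG N) : OG N := (house k g⁻¹)⁻¹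

theorem measurable_house (k : Fin N) : Measurable (house k) := by
  have hv : Measurable fun g : OG N => act g (ev k) := measurable_act measurable_id _
  exact Measurable.ite (measurableSet_le ((measurable_pi_apply k).comp hv) measurable_const)
    (measurable_refl (measurable_const.sub hv))
    ((measurable_refl (measurable_const.add hv)).mul_const _)

theorem measurable_step (k : Fin N) : Measurable (step k) :=
  ((measurable_house k).comp measurable_inv).inv

theorem ev_norm (k : Fin N) : ev k ⬝ᵥ ev k = 1 := by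
  rw [ev_dot]; simp [ev]

theorem act_house (k : Fin N) (g : OG N) : act (house k g) (ev k) = act g (ev k) := by
  set v := act g (ev k) with hv
  have hvv : v ⬝ᵥ v = 1 := by rw [hv, act_dot, ev_norm]
  unfold house
  rw [← hv]
  split_ifs with h
  · have hww : (ev k - v) ⬝ᵥ (ev k - v) = 2 * (1 - v k) := by
      rw [sub_dotProduct, dotProduct_sub, dotProduct_sub, ev_norm, hvv, ev_dot, dot_ev]; ring
    have hwe : (ev k - v) ⬝ᵥ ev k = 1 - v k := by
      rw [sub_dotProduct, ev_norm, dot_ev]
    rw [act_refl, hww, hwe]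
    have : 2 * (1 - v k) / (2 * (1 - v k)) = 1 := div_self (by linarith)
    rw [this, one_smul, sub_sub_cancel]
  · have hS : act (refl (ev k)) (ev k) = -ev k := by
      rw [act_refl, ev_norm]
      funext i; simp; ring
    have hww : (ev k + v) ⬝ᵥ (ev k + v) = 2 * (1 + v k) := by
      rw [add_dotProduct, dotProduct_add, dotProduct_add, ev_norm, hvv, ev_dot, dot_ev]; ring
    have hwe : (ev k + v) ⬝ᵥ -ev k = -(1 + v k) := by
      rw [dotProduct_neg, add_dotProduct, ev_norm, dot_ev]
    rw [act_mul, hS, act_refl, hww, hwe]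
    have : 2 * -(1 + v k) / (2 * (1 + v k)) = -1 := by
      rw [mul_neg, neg_div, div_self (by linarith [not_le.1 h])]
    rw [this]
    funext i; simp

theorem fixed_col {k : ℕ} {g : OG N} (hg : g ∈ fixSub N k) (i : Fin N) (hi : i.val < k)
    (j : Fin N) (hj : k ≤ j.val) : act g (ev i) j = 0 := by
  rw [act_apply_fixed hg _ j hj]
  have : j ≠ i := fun e => by subst e; omega
  simp [ev, this]

theorem house_mem (k : Fin N) {g : OG N} (hg : g ∈ fixSub N (k.val + 1)) :
    house k g ∈ fixSub N (k.val + 1) := by
  have hz : ∀ j : Fin N, k.val + 1 ≤ j.val → act g (ev k) j = 0 :=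
    fixed_col hg k (Nat.lt_succ_self _)
  have he : ∀ j : Fin N, k.val + 1 ≤ j.val → ev k j = 0 := fun j hj => by
    have : j ≠ k := fun e => by subst e; omega
    simp [ev, this]
  unfold house
  split_ifs
  · exact refl_mem_fixSub fun j hj => by simp [hz j hj, he j hj]
  · exact mul_mem (refl_mem_fixSub fun j hj => by simp [hz j hj, he j hj])
      (refl_mem_fixSub he)

theorem house_inv_mul_mem (k : Fin N) {g : OG N} (hg : g ∈ fixSub N (k.val + 1)) :
    (house k g)⁻¹ * g ∈ fixSub N k.val := by
  intro j hj
  rcases hj.eq_or_lt with h | h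
  · have : j = k := Fin.ext h.symm
    subst this
    rw [act_mul, ← act_house j g, act_inv_act]
  · exact (mul_mem (inv_mem (house_mem k hg)) hg) j h

/-- Averages over the subgroup `fixSub N k`. -/
noncomputable def avg (k : ℕ) (f : OG N → ℝ) (U : OG N) : ℝ := ∫ h, f (U * h) ∂(mk N k)

theorem measurable_avg (k : ℕ) {f : OG N → ℝ} (hf : Measurable f) : Measurable (avg k f) :=
  ((hf.comp measurable_mul).stronglyMeasurable.integral_prod_right').measurable

theorem avg_zero (f : OG N → ℝ) (U : OG N) : avg 0 f U = f U := by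
  rw [avg, mk_zero, mul_one]

theorem avg_top {f : OG N → ℝ} (hf : Continuous f) (U : OG N) :
    avg N f U = ∫ V, f V ∂(mk N N) :=
  mk_left (fixSub_top U) hf.measurable

theorem avg_right_invariant {k : ℕ} {f : OG N → ℝ} (hf : Continuous f) {u : OG N}
    (hu : u ∈ fixSub N k) (U : OG N) : avg k f (U * u) = avg k f U := by
  simp only [avg, mul_assoc]
  exact mk_left hu (hf.measurable.comp (measurable_const_mul U))

theorem integral_avg {μ : Measure (OG N)} [IsProbabilityMeasure μ] [μ.IsMulRightInvariant]
    (k : ℕ) {f : OG N → ℝ} (hf : Measurable f) (B : ℝ) (hb : ∀ x, |f x| ≤ B) :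
    ∫ U, avg k f U ∂μ = ∫ U, f U ∂μ := by
  simp only [avg]
  rw [integral_integral_swap]
  · rw [integral_congr_ae (Filter.Eventually.of_forall fun h =>
      integral_mul_right_eq_self (μ := μ) f h)]
    simp
  · exact integrable_of_abs_le (hf.comp measurable_mul) B fun p => hb _

theorem integral_mul_avg {k : ℕ} {f g : OG N → ℝ} (hf : Continuous f) (hg : Measurable g)
    (B : ℝ) (hb : ∀ x, |g x| ≤ B) (hinv : ∀ U, ∀ u ∈ fixSub N k, g (U * u) = g U) :
    ∫ U, g U * avg k f U ∂(orthHaar N) = ∫ U, g U * f U ∂(orthHaar N) := by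
  obtain ⟨B', hB'⟩ := exists_abs_bound hf
  rw [← integral_avg (μ := orthHaar N) k (f := fun U => g U * f U) (hg.mul hf.measurable) (B * B')
    fun x => by
      rw [abs_mul]
      exact mul_le_mul (hb x) (hB' x) (abs_nonneg _) ((abs_nonneg _).trans (hb x))]
  refine integral_congr_ae (Filter.Eventually.of_forall fun U => ?_)
  simp only [avg]
  rw [← integral_const_mul]
  exact integral_congr_ae ((mk_mem N k).mono fun h hh => by simp only [hinv U h hh])

/-- One step of the chain. -/
noncomputable def jump (k : Fin N) (f : OG N → ℝ) (V : OG N) : ℝ :=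
  ∫ g, (f V - f (V * step k g)) ∂(mk N (k.val + 1))

theorem measurable_jump_arg (k : Fin N) {f : OG N → ℝ} (hf : Continuous f) :
    Measurable fun p : OG N × OG N => f p.1 - f (p.1 * step k p.2) :=
  (hf.measurable.comp measurable_fst).sub
    (hf.measurable.comp (measurable_fst.mul ((measurable_step k).comp measurable_snd)))

theorem measurable_jump (k : Fin N) {f : OG N → ℝ} (hf : Continuous f) :
    Measurable (jump k f) :=
  ((measurable_jump_arg k hf).stronglyMeasurable.integral_prod_right').measurable

theorem avg_succ (k : Fin N) {f : OG N → ℝ} (hf : Continuous f) (U : OG N) :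
    avg (k.val + 1) f U = ∫ h, ∫ g, f (U * h * step k g) ∂(mk N (k.val + 1)) ∂(mk N k.val) := by
  obtain ⟨B, hB⟩ := exists_abs_bound hf
  have m : Measurable fun x : OG N => f (U * x) := hf.measurable.comp (measurable_const_mul U)
  have hm1 : Measurable fun p : OG N × OG N => f (U * p.1 * p.2) :=
    hf.measurable.comp ((measurable_fst.const_mul U).mul measurable_snd)
  have hm2 : Measurable fun p : OG N × OG N => f (U * p.1 * step k p.2) :=
    hf.measurable.comp ((measurable_fst.const_mul U).mul
      ((measurable_step k).comp measurable_snd))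
  have e1 : avg (k.val + 1) f U =
      ∫ h, ∫ g, f (U * h * g) ∂(mk N (k.val + 1)) ∂(mk N k.val) := by
    have : ∀ᵐ h ∂(mk N k.val),
        ∫ g, f (U * h * g) ∂(mk N (k.val + 1)) = avg (k.val + 1) f U :=
      (mk_mem N k.val).mono fun h hh => by
        simp only [mul_assoc]
        exact mk_left (fixSub_mono (Nat.le_succ _) hh) m
    rw [integral_congr_ae this]
    simp
  rw [e1, integral_integral_swap (integrable_of_abs_le (f := uncurry fun h g => f (U * h * g)) hm1 B
      fun p => hB _),
    integral_integral_swap (integrable_of_abs_le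
      (f := uncurry fun h g => f (U * h * step k g)) hm2 B fun p => hB _)]
  refine integral_congr_ae ((mk_mem N (k.val + 1)).mono fun g hg => ?_)
  have hmem : g * house k g⁻¹ ∈ fixSub N k.val := by
    have h1 := inv_mem (house_inv_mul_mem k (inv_mem hg))
    rwa [_root_.mul_inv_rev, inv_inv, inv_inv] at h1
  have hd : g = g * house k g⁻¹ * step k g := by simp [step]
  have m3 : Measurable fun x : OG N => f (U * x * step k g) :=
    hf.measurable.comp ((measurable_const_mul U).mul_const _)
  have h := mk_right hmem m3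
  calc ∫ h, f (U * h * g) ∂(mk N k.val)
      = ∫ h, f (U * (h * (g * house k g⁻¹)) * step k g) ∂(mk N k.val) := by
        refine integral_congr_ae (Filter.Eventually.of_forall fun x => ?_)
        simp [mul_assoc, step]
    _ = _ := h

theorem avg_diff (k : Fin N) {f : OG N → ℝ} (hf : Continuous f) (U : OG N) :
    avg k.val f U - avg (k.val + 1) f U = avg k.val (jump k f) U := by
  obtain ⟨B, hB⟩ := exists_abs_bound hf
  have m : Measurable fun x : OG N => f (U * x) := hf.measurable.comp (measurable_const_mul U)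
  have m2 : Measurable fun h => ∫ g, f (U * h * step k g) ∂(mk N (k.val + 1)) := by
    have hm2 : Measurable fun p : OG N × OG N => f (U * p.1 * step k p.2) :=
      hf.measurable.comp ((measurable_fst.const_mul U).mul
        ((measurable_step k).comp measurable_snd))
    exact (hm2.stronglyMeasurable.integral_prod_right').measurable
  rw [avg_succ k hf, avg, avg, ← integral_sub (integrable_of_abs_le m B fun x => hB _)
    (integrable_of_abs_le m2 B fun x => abs_integral_le_of B fun g => hB _)]
  refine integral_congr_ae (Filter.Eventually.of_forall fun h => ?_)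
  simp only [jump]
  rw [integral_sub (f := fun _ => f (U * h)) (g := fun g => f (U * h * step k g))
    (integrable_const _)
    (integrable_of_abs_le (hf.measurable.comp ((measurable_step k).const_mul (U * h))) B
      fun g => hB _)]
  simp

theorem abs_avg_le (k : ℕ) {f : OG N → ℝ} (B : ℝ) (hb : ∀ x, |f x| ≤ B) (U : OG N) :
    |avg k f U| ≤ B := abs_integral_le_of B fun _ => hb _

theorem integrable_avg_mul (j k : ℕ) {f : OG N → ℝ} (hf : Continuous f) :
    Integrable (fun U => avg j f U * avg k f U) (orthHaar N) := by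
  obtain ⟨B, hB⟩ := exists_abs_bound hf
  exact integrable_of_abs_le ((measurable_avg j hf.measurable).mul
    (measurable_avg k hf.measurable)) (B * B) fun U => by
      rw [abs_mul]
      exact mul_le_mul (abs_avg_le j B hB U) (abs_avg_le k B hB U) (abs_nonneg _)
        ((abs_nonneg _).trans (abs_avg_le j B hB U))

theorem avg_diff_sq (k : Fin N) {f : OG N → ℝ} (hf : Continuous f) :
    (∫ U, avg k.val f U ^ 2 ∂(orthHaar N)) - ∫ U, avg (k.val + 1) f U ^ 2 ∂(orthHaar N) =
      ∫ U, (avg k.val f U - avg (k.val + 1) f U) ^ 2 ∂(orthHaar N) := by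
  obtain ⟨B, hB⟩ := exists_abs_bound hf
  have hbm := measurable_avg (k.val + 1) hf.measurable
  have hbb := abs_avg_le (k.val + 1) B hB
  have hbinv : ∀ U, ∀ u ∈ fixSub N (k.val + 1),
      avg (k.val + 1) f (U * u) = avg (k.val + 1) f U :=
    fun U u hu => avg_right_invariant hf hu U
  have e1 := integral_mul_avg (k := k.val) hf hbm B hbb
    fun U u hu => hbinv U u (fixSub_mono (Nat.le_succ _) hu)
  have e2 := integral_mul_avg (k := k.val + 1) hf hbm B hbb hbinv
  have i1 := integrable_avg_mul k.val k.val hf
  have i2 := integrable_avg_mul (k.val + 1) (k.val + 1) hf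
  have i3 := (integrable_avg_mul (k.val + 1) k.val hf).const_mul 2
  have e : (fun U => (avg k.val f U - avg (k.val + 1) f U) ^ 2) =
      fun U => (avg k.val f U * avg k.val f U + avg (k.val + 1) f U * avg (k.val + 1) f U) -
        2 * (avg (k.val + 1) f U * avg k.val f U) := by funext U; ring
  rw [e, integral_sub
      (f := fun U => avg k.val f U * avg k.val f U + avg (k.val + 1) f U * avg (k.val + 1) f U)
      (i1.add i2) i3,
    integral_add i1 i2, integral_const_mul, e1, ← e2]
  simp only [sq]
  ring

theorem avg_diff_sq_le (k : Fin N) {f : OG N → ℝ} (hf : Continuous f) :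
    ∫ U, (avg k.val f U - avg (k.val + 1) f U) ^ 2 ∂(orthHaar N) ≤
      ∫ V, jump k f V ^ 2 ∂(orthHaar N) := by
  obtain ⟨B, hB⟩ := exists_abs_bound hf
  have hjm := measurable_jump k hf
  have hjb : ∀ V, |jump k f V| ≤ 2 * B := fun V =>
    abs_integral_le_of _ fun g => (abs_sub _ _).trans (by linarith [hB V, hB (V * step k g)])
  have hj2b : ∀ V, |jump k f V ^ 2| ≤ (2 * B) ^ 2 := fun V => by
    rw [abs_pow]; exact pow_le_pow_left₀ (abs_nonneg _) (hjb V) 2
  simp only [avg_diff k hf]
  rw [← integral_avg (μ := orthHaar N) k.val (f := fun V => jump k f V ^ 2)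
    (hjm.pow_const 2) _ hj2b]
  refine integral_mono (μ := orthHaar N) ?_ ?_ fun U => ?_
  · exact integrable_of_abs_le ((measurable_avg _ hjm).pow_const 2) ((2 * B) ^ 2) fun U => by
      rw [abs_pow]
      exact pow_le_pow_left₀ (abs_nonneg _) (abs_avg_le _ _ hjb U) 2
  · exact integrable_of_abs_le (measurable_avg _ (hjm.pow_const 2)) ((2 * B) ^ 2)
      fun U => abs_avg_le _ _ hj2b U
  · exact sq_integral_le (f := fun h => jump k f (U * h))
      (hjm.comp (measurable_const_mul U)) (2 * B) fun h => hjb _

/-- Bound on the drop of the squared norm along the chain. -/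
theorem energy_drop_le (k : Fin N) {f : OG N → ℝ} (hf : Continuous f) :
    (∫ U, avg k.val f U ^ 2 ∂(orthHaar N)) - ∫ U, avg (k.val + 1) f U ^ 2 ∂(orthHaar N) ≤
      ∫ U, ∫ g, (f U - f (U * step k g)) ^ 2 ∂(mk N (k.val + 1)) ∂(orthHaar N) := by
  obtain ⟨B, hB⟩ := exists_abs_bound hf
  rw [avg_diff_sq k hf]
  refine (avg_diff_sq_le k hf).trans ?_
  have hjm := measurable_jump k hf
  have hjb : ∀ V, |jump k f V| ≤ 2 * B := fun V =>
    abs_integral_le_of _ fun g => (abs_sub _ _).trans (by linarith [hB V, hB (V * step k g)])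
  have mm := (measurable_jump_arg k hf).pow_const 2
  have hB2 : ∀ p : OG N × OG N, |(f p.1 - f (p.1 * step k p.2)) ^ 2| ≤ (2 * B) ^ 2 := fun p => by
    rw [abs_pow]
    exact pow_le_pow_left₀ (abs_nonneg _)
      ((abs_sub _ _).trans (by linarith [hB p.1, hB (p.1 * step k p.2)])) 2
  refine integral_mono (μ := orthHaar N) ?_ ?_ fun U => ?_
  · exact integrable_of_abs_le (hjm.pow_const 2) ((2 * B) ^ 2) fun V => by
      rw [abs_pow]; exact pow_le_pow_left₀ (abs_nonneg _) (hjb V) 2
  · exact integrable_of_abs_le mm.stronglyMeasurable.integral_prod_right'.measurable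
      ((2 * B) ^ 2) fun U => abs_integral_le_of _ fun g => hB2 (U, g)
  · exact sq_integral_le (f := fun g => f U - f (U * step k g))
      (measurable_const.sub (hf.measurable.comp ((measurable_step k).const_mul U)))
      (2 * B) fun g => (abs_sub _ _).trans (by linarith [hB U, hB (U * step k g)])

/-- The chain bound for the variance of a continuous function on `O(N)`. -/
theorem variance_le_chain {f : OG N → ℝ} (hf : Continuous f) :
    ∫ U, (f U - ∫ V, f V ∂(orthHaar N)) ^ 2 ∂(orthHaar N) ≤
      ∑ k : Fin N,
        ∫ U, ∫ g, (f U - f (U * step k g)) ^ 2 ∂(mk N (k.val + 1)) ∂(orthHaar N) := by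
  obtain ⟨B, hB⟩ := exists_abs_bound hf
  set e : ℕ → ℝ := fun j => ∫ U, avg j f U ^ 2 ∂(orthHaar N) with he
  have hc : ∫ V, f V ∂(mk N N) = ∫ V, f V ∂(orthHaar N) := by
    have h := integral_avg (μ := orthHaar N) N hf.measurable B hB
    rw [← h]
    simp [avg_top hf]
  have htel : ∑ k : Fin N, (e k.val - e (k.val + 1)) = e 0 - e N := by
    rw [Fin.sum_univ_eq_sum_range (fun j => e j - e (j + 1)) N, Finset.sum_range_sub']
  refine le_trans (le_of_eq ?_) (Finset.sum_le_sum fun k _ => energy_drop_le k hf)
  rw [htel]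
  simp only [he, avg_zero, avg_top hf, hc]
  rw [integral_sq_sub (integrable_cont hf) (integrable_cont (hf.pow 2))]
  simp
  ring

end Vale.Agent.P166
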