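import Mathlib

open MeasureTheory Matrix Set Function

namespace Vale.Agent.P166

variable {N : ℕ}

/-- The orthogonal group `O(N)`. -/
abbrev OG (N : ℕ) : Type := ↥(Matrix.orthogonalGroup (Fin N) ℝ)

theorem og_entry_mem (U : OG N) (i j : Fin N) :
    (U : Matrix (Fin N) (Fin N) ℝ) i j ∈ Icc (-1 : ℝ) 1 := by
  have h := (Matrix.mem_orthogonalGroup_iff (Fin N) ℝ).1 U.2
  have h' := congrFun (congrFun h i) i
  rw [Matrix.mul_apply, Matrix.one_apply_eq] at h'
  have hb : (U : Matrix (Fin N) (Fin N) ℝ) i j ^ 2 ≤ 1 := by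
    rw [← h', sq]
    exact Finset.single_le_sum
      (f := fun k => (U : Matrix (Fin N) (Fin N) ℝ) i k * (U : Matrix (Fin N) (Fin N) ℝ) i k)
      (fun k _ => mul_self_nonneg _) (Finset.mem_univ j)
  constructor <;> nlinarith

instance ogCompact (N : ℕ) : CompactSpace (OG N) := by
  refine isCompact_iff_compactSpace.1 ?_
  have hK : IsCompact (Set.univ.pi fun _ : Fin N => Set.univ.pi fun _ : Fin N =>
      Icc (-1 : ℝ) 1) :=
    isCompact_univ_pi fun _ => isCompact_univ_pi fun _ => isCompact_Icc
  refine hK.of_isClosed_subset ?_ ?_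
  · have hset : (Matrix.orthogonalGroup (Fin N) ℝ : Set (Matrix (Fin N) (Fin N) ℝ)) =
        {A | A * A.transpose = 1} := by
      ext A
      exact Matrix.mem_orthogonalGroup_iff (Fin N) ℝ
    rw [show (↑(Matrix.orthogonalGroup (Fin N) ℝ) : Set (Matrix (Fin N) (Fin N) ℝ)) =
      {A | A * A.transpose = 1} from hset]
    exact isClosed_eq (continuous_id.matrix_mul continuous_id.matrix_transpose) continuous_const
  · intro A hA i _ j _
    exact og_entry_mem ⟨A, hA⟩ i j

instance ogSecondCountable (N : ℕ) : SecondCountableTopology (OG N) := by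
  have : SecondCountableTopology (Matrix (Fin N) (Fin N) ℝ) :=
    inferInstanceAs (SecondCountableTopology (Fin N → Fin N → ℝ))
  exact TopologicalSpace.Subtype.secondCountableTopology _

instance ogMeasurable (N : ℕ) : MeasurableSpace (OG N) := borel _

instance ogBorel (N : ℕ) : BorelSpace (OG N) := ⟨rfl⟩

section General

variable {G : Type*} [Group G] [TopologicalSpace G] [IsTopologicalGroup G] [T2Space G]
  [CompactSpace G] [SecondCountableTopology G] [MeasurableSpace G] [BorelSpace G]

/-- Haar probability measure of a compact group. -/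
noncomputable def haarP (G : Type*) [Group G] [TopologicalSpace G] [IsTopologicalGroup G]
    [T2Space G] [CompactSpace G] [SecondCountableTopology G] [MeasurableSpace G] [BorelSpace G] :
    Measure G :=
  Measure.haarMeasure ⊤

instance haarP_prob : IsProbabilityMeasure (haarP G) :=
  ⟨by
    have h := Measure.haarMeasure_self (G := G) (K₀ := ⊤)
    simpa [haarP] using h⟩

instance haarP_haar : (haarP G).IsHaarMeasure := by
  unfold haarP
  infer_instance

instance haarP_right : (haarP G).IsMulRightInvariant := by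
  constructor
  intro g
  have : IsProbabilityMeasure (Measure.map (· * g) (haarP G)) :=
    Measure.isProbabilityMeasure_map (measurable_mul_const g).aemeasurable
  exact (Measure.isHaarMeasure_eq_of_isProbabilityMeasure (haarP G)
    (Measure.map (· * g) (haarP G))).symm

end General

/-- Haar probability measure on `O(N)`. -/
noncomputable def orthHaar (N : ℕ) : Measure (OG N) := haarP (OG N)

instance orthHaar_prob (N : ℕ) : IsProbabilityMeasure (orthHaar N) := by
  unfold orthHaar; infer_instance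

instance orthHaar_left (N : ℕ) : (orthHaar N).IsMulLeftInvariant := by
  unfold orthHaar; infer_instance

instance orthHaar_right (N : ℕ) : (orthHaar N).IsMulRightInvariant := by
  unfold orthHaar; infer_instance

/-- Standard basis vector. -/
def ev (i : Fin N) : Fin N → ℝ := Pi.single i 1

/-- The action of `O(N)` on vectors. -/
noncomputable def act (U : OG N) (x : Fin N → ℝ) : Fin N → ℝ :=
  (U : Matrix (Fin N) (Fin N) ℝ) *ᵥ x

theorem act_one (x : Fin N → ℝ) : act (1 : OG N) x = x := Matrix.one_mulVec x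

theorem act_mul (U V : OG N) (x : Fin N → ℝ) : act (U * V) x = act U (act V x) := by
  simp [act, Matrix.mulVec_mulVec]

theorem act_dot (U : OG N) (x y : Fin N → ℝ) : act U x ⬝ᵥ act U y = x ⬝ᵥ y := by
  have h := (Matrix.mem_orthogonalGroup_iff' (Fin N) ℝ).1 U.2
  rw [act, act, Matrix.dotProduct_mulVec, ← Matrix.mulVec_transpose, Matrix.mulVec_mulVec, h,
    Matrix.one_mulVec]

theorem act_inv_act (U : OG N) (x : Fin N → ℝ) : act U⁻¹ (act U x) = x := by
  rw [← act_mul, inv_mul_cancel, act_one]

theorem act_inv_dot (U : OG N) (x y : Fin N → ℝ) : act U⁻¹ x ⬝ᵥ y = x ⬝ᵥ act U y := by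
  rw [← act_dot U (act U⁻¹ x) y, ← act_mul, mul_inv_cancel, act_one]

theorem act_sub (U : OG N) (x y : Fin N → ℝ) : act U (x - y) = act U x - act U y :=
  Matrix.mulVec_sub _ x y

theorem act_smul (U : OG N) (a : ℝ) (x : Fin N → ℝ) : act U (a • x) = a • act U x :=
  Matrix.mulVec_smul _ a x

theorem ev_dot (i : Fin N) (x : Fin N → ℝ) : ev i ⬝ᵥ x = x i := by
  simp [ev]

theorem dot_ev (i : Fin N) (x : Fin N → ℝ) : x ⬝ᵥ ev i = x i := by
  simp [ev]

theorem og_ext {U V : OG N} (h : ∀ x, act U x = act V x) : U = V := by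
  apply Subtype.ext
  exact Matrix.ext_iff_mulVec.2 h

theorem og_ext_ev {U V : OG N} (h : ∀ j, act U (ev j) = act V (ev j)) : U = V := by
  apply Subtype.ext
  ext i j
  have := congrFun (h j) i
  simpa [act, ev, Matrix.mulVec_single] using this

theorem continuous_act (x : Fin N → ℝ) : Continuous fun U : OG N => act U x :=
  Continuous.matrix_mulVec continuous_subtype_val continuous_const

/-- Householder reflection along `w` (the identity when `w = 0`). -/
noncomputable def refMat (w : Fin N → ℝ) : Matrix (Fin N) (Fin N) ℝ :=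
  1 - (2 / (w ⬝ᵥ w)) • Matrix.vecMulVec w w

theorem refMat_transpose (w : Fin N → ℝ) : (refMat w)ᵀ = refMat w := by
  simp [refMat, Matrix.transpose_vecMulVec]

theorem refMat_sq (w : Fin N → ℝ) : refMat w * refMat w = 1 := by
  rw [refMat, sub_mul, mul_sub, mul_sub, one_mul, mul_one, one_mul]
  rw [Matrix.smul_mul, Matrix.mul_smul, Matrix.vecMulVec_mul_vecMulVec]
  by_cases h : w ⬝ᵥ w = 0
  · simp [h]
  · rw [Matrix.vecMulVec_smul, smul_smul, smul_smul]
    have hc : 2 / (w ⬝ᵥ w) * (2 / (w ⬝ᵥ w)) * (w ⬝ᵥ w) = 2 * (2 / (w ⬝ᵥ w)) := by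
      field_simp
    rw [hc, two_mul, add_smul]
    abel

/-- Householder reflection as an element of `O(N)`. -/
noncomputable def refl (w : Fin N → ℝ) : OG N :=
  ⟨refMat w, (Matrix.mem_orthogonalGroup_iff (Fin N) ℝ).2 (by
    rw [refMat_transpose, refMat_sq])⟩

theorem act_refl (w x : Fin N → ℝ) :
    act (refl w) x = x - (2 * (w ⬝ᵥ x) / (w ⬝ᵥ w)) • w := by
  funext i
  simp only [act, refl, refMat, Matrix.sub_mulVec, Matrix.one_mulVec, Matrix.smul_mulVec,
    Matrix.vecMulVec_mulVec, Pi.sub_apply, Pi.smul_apply, smul_eq_mul]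
  simp only [MulOpposite.smul_eq_mul_unop, MulOpposite.unop_op]
  ring

theorem refl_mul_self (w : Fin N → ℝ) : refl w * refl w = 1 :=
  Subtype.ext (refMat_sq w)

theorem refl_inv (w : Fin N → ℝ) : (refl w)⁻¹ = refl w :=
  inv_eq_of_mul_eq_one_right (refl_mul_self w)

theorem refl_act_orth (M : OG N) (w : Fin N → ℝ) : M * refl w = refl (act M w) * M := by
  apply og_ext
  intro x
  rw [act_mul, act_mul, act_refl, act_refl, act_sub, act_smul, act_dot, act_dot]

theorem act_refl_swap {a b : Fin N} (hab : a ≠ b) (x : Fin N → ℝ) (i : Fin N) :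
    act (refl (ev a - ev b)) x i = x (Equiv.swap a b i) := by
  rw [act_refl]
  have h1 : (ev a - ev b) ⬝ᵥ (ev a - ev b) = 2 := by
    rw [sub_dotProduct, ev_dot, ev_dot]
    simp [ev, hab, hab.symm]
    norm_num
  have h2 : (ev a - ev b) ⬝ᵥ x = x a - x b := by
    rw [sub_dotProduct, ev_dot, ev_dot]
  rw [h1, h2]
  simp only [Pi.sub_apply, Pi.smul_apply, smul_eq_mul, ev]
  rcases eq_or_ne i a with rfl | ha
  · simp [hab]
  · rcases eq_or_ne i b with rfl | hb
    · simp [hab.symm]
    · simp [ha, hb, Equiv.swap_apply_of_ne_of_ne ha hb]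

/-- The subgroup fixing the basis vectors with index at least `k`. -/
noncomputable def fixSub (N k : ℕ) : Subgroup (OG N) where
  carrier := {g | ∀ j : Fin N, k ≤ j.val → act g (ev j) = ev j}
  mul_mem' := by
    intro a b ha hb j hj
    rw [act_mul, hb j hj, ha j hj]
  one_mem' := fun j _ => act_one _
  inv_mem' := by
    intro a ha j hj
    conv_lhs => rw [← ha j hj]
    exact act_inv_act a _

theorem mem_fixSub {k : ℕ} {g : OG N} :
    g ∈ fixSub N k ↔ ∀ j : Fin N, k ≤ j.val → act g (ev j) = ev j := Iff.rfl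

theorem fixSub_mono {k l : ℕ} (h : k ≤ l) : fixSub N k ≤ fixSub N l :=
  fun _ hg j hj => hg j (h.trans hj)

theorem fixSub_zero {g : OG N} (hg : g ∈ fixSub N 0) : g = 1 :=
  og_ext_ev fun j => by rw [hg j (Nat.zero_le _), act_one]

theorem fixSub_top (g : OG N) : g ∈ fixSub N N :=
  fun j hj => absurd hj (not_le.2 j.isLt)

theorem act_apply_fixed {k : ℕ} {g : OG N} (hg : g ∈ fixSub N k) (x : Fin N → ℝ)
    (j : Fin N) (hj : k ≤ j.val) : act g x j = x j := by
  rw [← ev_dot j (act g x), ← hg j hj, act_dot, ev_dot]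

theorem refl_mem_fixSub {k : ℕ} {w : Fin N → ℝ} (hw : ∀ j : Fin N, k ≤ j.val → w j = 0) :
    refl w ∈ fixSub N k := by
  intro j hj
  rw [act_refl, dot_ev, hw j hj]
  simp

theorem isClosed_fixSub (N k : ℕ) : IsClosed (fixSub N k : Set (OG N)) := by
  have h : (fixSub N k : Set (OG N)) =
      ⋂ j : Fin N, ⋂ _ : k ≤ j.val, {g : OG N | act g (ev j) = ev j} := by
    ext g; simp [mem_fixSub]
  rw [h]
  exact isClosed_iInter fun j => isClosed_iInter fun _ =>
    isClosed_eq (continuous_act _) continuous_const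

instance fixSub_compact (N k : ℕ) : CompactSpace (fixSub N k) :=
  isCompact_iff_compactSpace.1 (isClosed_fixSub N k).isCompact

instance fixSub_second (N k : ℕ) : SecondCountableTopology (fixSub N k) :=
  TopologicalSpace.Subtype.secondCountableTopology _

/-- The Haar probability measure of `fixSub N k`, seen on `O(N)`. -/
noncomputable def mk (N k : ℕ) : Measure (OG N) :=
  Measure.map Subtype.val (haarP (fixSub N k))

instance mk_prob (N k : ℕ) : IsProbabilityMeasure (mk N k) :=
  Measure.isProbabilityMeasure_map measurable_subtype_coe.aemeasurable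

theorem mk_integral {k : ℕ} {F : OG N → ℝ} (hF : Measurable F) :
    ∫ g, F g ∂(mk N k) = ∫ g : fixSub N k, F g ∂(haarP (fixSub N k)) :=
  integral_map measurable_subtype_coe.aemeasurable hF.aestronglyMeasurable

theorem mk_left {k : ℕ} {u : OG N} (hu : u ∈ fixSub N k) {F : OG N → ℝ} (hF : Measurable F) :
    ∫ g, F (u * g) ∂(mk N k) = ∫ g, F g ∂(mk N k) := by
  have h2 : Measurable fun g => F (u * g) := hF.comp (measurable_const_mul u)
  rw [mk_integral hF, mk_integral h2]
  exact integral_mul_left_eq_self (μ := haarP (fixSub N k))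
    (fun g : fixSub N k => F g) ⟨u, hu⟩

theorem mk_right {k : ℕ} {u : OG N} (hu : u ∈ fixSub N k) {F : OG N → ℝ} (hF : Measurable F) :
    ∫ g, F (g * u) ∂(mk N k) = ∫ g, F g ∂(mk N k) := by
  have h2 : Measurable fun g => F (g * u) := hF.comp (measurable_mul_const u)
  rw [mk_integral hF, mk_integral h2]
  exact integral_mul_right_eq_self (μ := haarP (fixSub N k))
    (fun g : fixSub N k => F g) ⟨u, hu⟩

theorem mk_mem (N k : ℕ) : ∀ᵐ g ∂(mk N k), g ∈ fixSub N k := by
  rw [mk]
  exact (ae_map_iff measurable_subtype_coe.aemeasurable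
    (isClosed_fixSub N k).measurableSet).2 (Filter.Eventually.of_forall fun g => g.2)

theorem mk_zero (F : OG N → ℝ) : ∫ g, F g ∂(mk N 0) = F 1 := by
  have h : ∀ᵐ g ∂(mk N 0), F g = F 1 :=
    (mk_mem N 0).mono fun g hg => by rw [fixSub_zero hg]
  rw [integral_congr_ae h]
  simp

theorem integrable_of_abs_le {α : Type*} [MeasurableSpace α] {μ : Measure α} [IsFiniteMeasure μ]
    {f : α → ℝ} (hf : Measurable f) (B : ℝ) (hb : ∀ x, |f x| ≤ B) : Integrable f μ :=
  Integrable.of_bound hf.aestronglyMeasurable B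
    (Filter.Eventually.of_forall fun x => by rw [Real.norm_eq_abs]; exact hb x)

theorem integrable_cont {μ : Measure (OG N)} [IsFiniteMeasure μ]
    {f : OG N → ℝ} (hf : Continuous f) : Integrable f μ := by
  obtain ⟨B, hB⟩ := isCompact_univ.exists_bound_of_continuousOn hf.continuousOn
  exact integrable_of_abs_le hf.measurable B fun x => hB x (Set.mem_univ x)

end Vale.Agent.P166
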