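import Vale.Agent.P166.Var

open MeasureTheory Matrix Set Function Filter
open scoped Topology BoundedContinuousFunction

namespace Vale.Agent.P166

variable {N : ℕ}

/-- The hypotheses on the eigenvalues: empirical laws converge weakly to `μ`, the largest
eigenvalue is eventually at most `max supp μ + ε`, and the smallest is eventually bounded below. -/
def Admissible (μ : Measure ℝ) (lam : ∀ N, Fin N → ℝ) : Prop :=
  (∀ f : ℝ →ᵇ ℝ, Tendsto (fun N => (∑ i, f (lam N i)) / (N : ℝ)) atTop (𝓝 (∫ x, f x ∂μ))) ∧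
    (∀ ε > 0, ∀ᶠ N in atTop, ∀ i, lam N i ≤ sSup μ.support + ε) ∧
    ∃ L, ∀ᶠ N in atTop, ∀ i, L ≤ lam N i

/-- The expected pressure. -/
noncomputable def meanP (β : ℝ) (lam : Fin N → ℝ) : ℝ := ∫ U, pressure β lam U ∂(orthHaar N)

theorem meanP_swap {a b : Fin N} (hab : a ≠ b) (β : ℝ) (lam : Fin N → ℝ) :
    meanP β (fun i => lam (Equiv.swap a b i)) = meanP β lam := by
  simp only [meanP, pressure_swap_left hab]
  exact integral_mul_left_eq_self (μ := orthHaar N) (pressure β lam) _

theorem meanP_perm (β : ℝ) (π : Equiv.Perm (Fin N)) (lam : Fin N → ℝ) :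
    meanP β (lam ∘ π) = meanP β lam := by
  induction π using Equiv.Perm.swap_induction_on generalizing lam with
  | one => rfl
  | swap_mul f x y hxy IH =>
    exact (IH (lam ∘ Equiv.swap x y)).trans (meanP_swap hxy β lam)

theorem mode_mass_le (β : ℝ) (z : Fin N → ℝ) (T : Finset (Fin N)) (H : ℝ)
    (hT : ∀ i ∈ T, z i = H) {k : Fin N} (hk : k ∈ T) :
    (T.card : ℝ) * ∫ U, gib β z U (fun s => act U (spin s) k ^ 2) ∂(orthHaar N) ≤ N := by
  have hcont : ∀ i : Fin N,
      Continuous fun U : OG N => gib β z U (fun s => act U (spin s) i ^ 2) := fun i =>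
    continuous_gib β z continuous_id fun s =>
      ((continuous_apply i).comp (continuous_act _)).pow 2
  have heq : ∀ i ∈ T, ∫ U, gib β z U (fun s => act U (spin s) i ^ 2) ∂(orthHaar N) =
      ∫ U, gib β z U (fun s => act U (spin s) k ^ 2) ∂(orthHaar N) := by
    intro i hi
    rcases eq_or_ne i k with rfl | hik
    · rfl
    rw [← integral_mul_left_eq_self (μ := orthHaar N)
      (fun U => gib β z U (fun s => act U (spin s) i ^ 2)) (refl (ev i - ev k))]
    refine integral_congr_ae (Eventually.of_forall fun U => ?_)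
    have hz : (fun j => z (Equiv.swap i k j)) = z := by
      funext j
      rcases eq_or_ne j i with rfl | h1
      · rw [Equiv.swap_apply_left, hT _ hk, hT _ hi]
      rcases eq_or_ne j k with rfl | h2
      · rw [Equiv.swap_apply_right, hT _ hk, hT _ hi]
      · rw [Equiv.swap_apply_of_ne_of_ne h1 h2]
    simp only [gib_swap_left hik, hz, act_mul, act_refl_swap hik, Equiv.swap_apply_left]
  calc (T.card : ℝ) * _ = ∑ i ∈ T, ∫ U, gib β z U (fun s => act U (spin s) i ^ 2) ∂(orthHaar N) := by
        rw [Finset.sum_congr rfl heq, Finset.sum_const, nsmul_eq_mul]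
    _ = ∫ U, ∑ i ∈ T, gib β z U (fun s => act U (spin s) i ^ 2) ∂(orthHaar N) :=
        (integral_finsetSum _ fun i _ => integrable_cont (hcont i)).symm
    _ ≤ ∫ _ : OG N, (N : ℝ) ∂(orthHaar N) := by
        refine integral_mono (integrable_finsetSum _ fun i _ => integrable_cont (hcont i))
          (integrable_const _) fun U => ?_
        rw [← gib_sum, ← gib_const β z U (N : ℝ)]
        refine gib_mono β z U fun s => ?_
        refine (Finset.sum_le_sum_of_subset_of_nonneg (Finset.subset_univ T)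
          fun i _ _ => sq_nonneg _).trans (le_of_eq ?_)
        have h := act_dot U (spin s) (spin s)
        rw [spin_dot] at h
        simpa [dotProduct, sq] using h
    _ = _ := by simp

/-- Raising eigenvalues: upper and lower bounds. -/
theorem meanP_raise {β : ℝ} (hβ : 0 ≤ β) (hN : 0 < N) (l z : Fin N → ℝ) (B T : Finset (Fin N))
    (H d D : ℝ) (hd : 0 ≤ d) (hD : 0 ≤ D) (hBT : B ⊆ T) (hT : ∀ i ∈ T, z i = H)
    (hle : ∀ i, l i ≤ z i) (hgood : ∀ i ∉ B, z i ≤ l i + d) (hbad : ∀ i, z i ≤ l i + D) :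
    meanP β l ≤ meanP β z ∧
      meanP β z ≤ meanP β l + β / 2 * (d + D * ((B.card : ℝ) / T.card)) := by
  have hNr : (0 : ℝ) < N := by exact_mod_cast hN
  have hen : ∀ U s, en z U s - en l U s = ∑ i, (z i - l i) * act U (spin s) i ^ 2 := fun U s => by
    simp only [en_eq, sub_mul, Finset.sum_sub_distrib]
  constructor
  · refine integral_mono (integrable_cont (continuous_pressure β l))
      (integrable_cont (continuous_pressure β z)) fun U => ?_
    have h := pressure_tangent β z l U U
    have h0 : 0 ≤ gib β l U (fun s => en z U s - en l U s) := gib_nonneg β l U fun s => by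
      rw [hen]; exact Finset.sum_nonneg fun i _ => mul_nonneg (by linarith [hle i]) (sq_nonneg _)
    have e : (fun s => en l U s - en z U s) = fun s => (-1) * (en z U s - en l U s) := by
      funext s; ring
    rw [e, gib_const_mul] at h
    have : 0 ≤ β / 2 / N := by positivity
    nlinarith
  · set Y := fun i : Fin N => fun U : OG N => gib β z U (fun s => act U (spin s) i ^ 2) with hY
    have hYc : ∀ i, Continuous (Y i) := fun i =>
      continuous_gib β z continuous_id fun s =>
        ((continuous_apply i).comp (continuous_act _)).pow 2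
    have hpt : ∀ U, pressure β z U ≤
        pressure β l U + β / 2 / N * (d * N + D * ∑ i ∈ B, Y i U) := by
      intro U
      have h := pressure_tangent β l z U U
      have hs : ∀ s, en z U s - en l U s ≤
          d * N + D * ∑ i ∈ B, act U (spin s) i ^ 2 := by
        intro s
        rw [hen, ← Finset.sum_add_sum_compl B]
        have h1 : ∑ i ∈ B, (z i - l i) * act U (spin s) i ^ 2 ≤
            D * ∑ i ∈ B, act U (spin s) i ^ 2 := by
          rw [Finset.mul_sum]
          exact Finset.sum_le_sum fun i _ =>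
            mul_le_mul_of_nonneg_right (by linarith [hbad i]) (sq_nonneg _)
        have h2 : ∑ i ∈ Bᶜ, (z i - l i) * act U (spin s) i ^ 2 ≤ d * N := by
          calc _ ≤ ∑ i ∈ Bᶜ, d * act U (spin s) i ^ 2 := Finset.sum_le_sum fun i hi =>
                mul_le_mul_of_nonneg_right
                  (by linarith [hgood i (Finset.mem_compl.1 hi)]) (sq_nonneg _)
            _ ≤ ∑ i, d * act U (spin s) i ^ 2 :=
                Finset.sum_le_sum_of_subset_of_nonneg (Finset.subset_univ _)
                  fun i _ _ => mul_nonneg hd (sq_nonneg _)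
            _ = _ := by
                have h := act_dot U (spin s) (spin s)
                rw [spin_dot] at h
                rw [← Finset.mul_sum, ← h]
                simp [dotProduct, sq]
        linarith
      have hg := gib_mono β z U hs
      rw [gib_add, gib_const, gib_const_mul, gib_sum] at hg
      have hc : 0 ≤ β / 2 / N := by positivity
      have := mul_le_mul_of_nonneg_left hg hc
      simp only [hY]
      linarith
    have hsum : ∑ i ∈ B, ∫ U, Y i U ∂(orthHaar N) ≤ (B.card : ℝ) / T.card * N := by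
      have hb : ∀ i ∈ B, ∫ U, Y i U ∂(orthHaar N) ≤ (N : ℝ) / T.card := by
        intro i hi
        have hpos : (0 : ℝ) < T.card := by
          exact_mod_cast Finset.card_pos.2 ⟨i, hBT hi⟩
        rw [le_div_iff₀ hpos, mul_comm]
        exact mode_mass_le β z T H hT (hBT hi)
      refine (Finset.sum_le_sum hb).trans (le_of_eq ?_)
      rw [Finset.sum_const, nsmul_eq_mul]; ring
    have iS : Integrable (fun U => ∑ i ∈ B, Y i U) (orthHaar N) :=
      integrable_finsetSum _ fun i _ => integrable_cont (hYc i)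
    have il := integrable_cont (μ := orthHaar N) (continuous_pressure β l)
    have i2 : Integrable (fun U => β / 2 / N * (d * N + D * ∑ i ∈ B, Y i U)) (orthHaar N) :=
      ((integrable_const _).add (iS.const_mul D)).const_mul _
    refine (integral_mono (integrable_cont (continuous_pressure β z)) (il.add i2) hpt).trans ?_
    simp only [Pi.add_apply]
    rw [integral_add il i2, integral_const_mul,
      integral_add (integrable_const _) (iS.const_mul D), integral_const, integral_const_mul,
      integral_finsetSum _ fun i _ => integrable_cont (hYc i)]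
    simp only [probReal_univ, smul_eq_mul, one_mul]
    have h1 : β / 2 / N * (d * N + D * ∑ i ∈ B, ∫ U, Y i U ∂(orthHaar N)) ≤
        β / 2 / N * (d * N + D * ((B.card : ℝ) / T.card * N)) := by
      gcongr
    have h2 : β / 2 / N * (d * N + D * ((B.card : ℝ) / T.card * N)) =
        β / 2 * (d + D * ((B.card : ℝ) / T.card)) := by field_simp
    unfold meanP
    linarith

/-- A continuous ramp from `0` at `c` to `1` at `c + w`. -/
noncomputable def ramp (c w : ℝ) : ℝ →ᵇ ℝ :=
  BoundedContinuousFunction.ofNormedAddCommGroup (fun x => max 0 (min 1 ((x - c) / w)))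
    (by fun_prop) 1 fun x => by
      rw [Real.norm_eq_abs, abs_le]
      exact ⟨by linarith [le_max_left (0 : ℝ) (min 1 ((x - c) / w))],
        max_le zero_le_one (min_le_left _ _)⟩

theorem ramp_apply (c w x : ℝ) : ramp c w x = max 0 (min 1 ((x - c) / w)) := rfl

theorem ramp_nonneg (c w x : ℝ) : 0 ≤ ramp c w x := by rw [ramp_apply]; exact le_max_left _ _

theorem ramp_le_one (c w x : ℝ) : ramp c w x ≤ 1 := by
  rw [ramp_apply]; exact max_le zero_le_one (min_le_left _ _)

theorem ramp_low {c w x : ℝ} (hw : 0 < w) (h : x ≤ c) : ramp c w x = 0 := by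
  rw [ramp_apply]
  exact max_eq_left ((min_le_right _ _).trans (div_nonpos_of_nonpos_of_nonneg (by linarith) hw.le))

theorem ramp_high {c w x : ℝ} (hw : 0 < w) (h : c + w ≤ x) : ramp c w x = 1 := by
  rw [ramp_apply, min_eq_left (by rw [le_div_iff₀ hw]; linarith), max_eq_right zero_le_one]

theorem sum_ramp_le_card {c w : ℝ} (hw : 0 < w) (l : Fin N → ℝ) :
    ∑ i, ramp c w (l i) ≤ ((Finset.univ.filter fun i => c < l i).card : ℝ) := by
  rw [Finset.card_filter, Nat.cast_sum]
  refine Finset.sum_le_sum fun i _ => ?_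
  by_cases h : c < l i
  · simp [h, ramp_le_one]
  · simp [h, ramp_low hw (not_lt.1 h)]

theorem card_le_sum_ramp {c w : ℝ} (hw : 0 < w) (l : Fin N → ℝ) :
    ((Finset.univ.filter fun i => c + w ≤ l i).card : ℝ) ≤ ∑ i, ramp c w (l i) := by
  rw [Finset.card_filter, Nat.cast_sum]
  refine Finset.sum_le_sum fun i _ => ?_
  by_cases h : c + w ≤ l i
  · simp [h, ramp_high hw h]
  · simp [h, ramp_nonneg]

theorem gap_card_le {l l' : Fin N → ℝ} (hl : Monotone l) (hl' : Monotone l') {c w : ℝ}
    (hw : 0 < w) :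
    ((Finset.univ.filter fun i => l i ≤ c ∧ c + w ≤ l' i).card : ℝ) ≤
      |∑ i, ramp c w (l' i) - ∑ i, ramp c w (l i)| := by
  set A := Finset.univ.filter fun i : Fin N => l i ≤ c with hA
  set B := Finset.univ.filter fun i : Fin N => c + w ≤ l' i with hB
  have hAB : (Finset.univ.filter fun i => l i ≤ c ∧ c + w ≤ l' i) = A ∩ B :=
    Finset.filter_and _ _ _
  rw [hAB]
  rcases (A ∩ B).eq_empty_or_nonempty with h | ⟨i, hi⟩
  · rw [h]; simp
  have hiA : l i ≤ c ∧ c + w ≤ l' i := by simpa [hA, hB] using hi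
  have hU : A ∪ B = Finset.univ := by
    ext j
    simp only [hA, hB, Finset.mem_union, Finset.mem_filter, Finset.mem_univ, true_and, iff_true]
    rcases le_total j i with h | h
    · exact Or.inl ((hl h).trans hiA.1)
    · exact Or.inr (hiA.2.trans (hl' h))
  have hcard := Finset.card_union_add_card_inter A B
  rw [hU, Finset.card_univ, Fintype.card_fin] at hcard
  have hsplit := Finset.card_filter_add_card_filter_not (s := Finset.univ)
    (fun i : Fin N => l i ≤ c)
  rw [Finset.card_univ, Fintype.card_fin] at hsplit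
  simp only [not_le, ← hA] at hsplit
  have h1 := card_le_sum_ramp (c := c) hw l'
  have h2 := sum_ramp_le_card (c := c) hw l
  rw [← hB] at h1
  have hcard' : (N : ℝ) + ((A ∩ B).card : ℝ) = A.card + B.card := by exact_mod_cast hcard
  have hsplit' : (A.card : ℝ) + ((Finset.univ.filter fun i : Fin N => c < l i).card : ℝ) = N := by
    exact_mod_cast hsplit
  have := le_abs_self (∑ i, ramp c w (l' i) - ∑ i, ramp c w (l i))
  linarith

/-- Indices at which the ordered sequences are more than `δ` apart. -/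
noncomputable def apart (δ : ℝ) (l l' : Fin N → ℝ) : Finset (Fin N) :=
  Finset.univ.filter fun i => l i + δ < l' i

theorem apart_card_le {l l' : Fin N → ℝ} (hl : Monotone l) (hl' : Monotone l') {δ L H : ℝ}
    (hδ : 0 < δ) (hL : ∀ i, L ≤ l i) (hH : ∀ i, l i ≤ H) :
    ((apart δ l l').card : ℝ) ≤
      ∑ j ∈ Finset.range (⌈(H - L) / (δ / 2)⌉₊ + 1),
        |∑ i, ramp (L + j * (δ / 2)) (δ / 2) (l' i) -
          ∑ i, ramp (L + j * (δ / 2)) (δ / 2) (l i)| := by
  set R := Finset.range (⌈(H - L) / (δ / 2)⌉₊ + 1)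
  set G := fun j : ℕ => Finset.univ.filter fun i : Fin N =>
    l i ≤ L + j * (δ / 2) ∧ L + j * (δ / 2) + δ / 2 ≤ l' i
  have hw : 0 < δ / 2 := by linarith
  have hsub : apart δ l l' ⊆ R.biUnion G := by
    intro i hi
    simp only [apart, Finset.mem_filter, Finset.mem_univ, true_and] at hi
    refine Finset.mem_biUnion.2 ⟨⌈(l i - L) / (δ / 2)⌉₊, ?_, ?_⟩
    · simp only [R, Finset.mem_range, Nat.lt_succ_iff]
      exact Nat.ceil_le_ceil (by gcongr; exact hH i)
    · have h1 := Nat.le_ceil ((l i - L) / (δ / 2))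
      have h2 := Nat.ceil_lt_add_one (div_nonneg (sub_nonneg.2 (hL i)) hw.le)
      rw [div_le_iff₀ hw] at h1
      rw [← sub_lt_iff_lt_add, lt_div_iff₀ hw] at h2
      simp only [G, Finset.mem_filter, Finset.mem_univ, true_and]
      constructor <;> linarith
  calc ((apart δ l l').card : ℝ) ≤ ((∑ j ∈ R, (G j).card : ℕ) : ℝ) := by
        exact_mod_cast (Finset.card_le_card hsub).trans Finset.card_biUnion_le
    _ = ∑ j ∈ R, ((G j).card : ℝ) := Nat.cast_sum _ _
    _ ≤ _ := Finset.sum_le_sum fun j _ => gap_card_le hl hl' hw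

/-- The finite comparison of two ordered spectra. -/
theorem compare_sorted {β : ℝ} (hβ : 0 ≤ β) (hN : 0 < N) {l l' : Fin N → ℝ} (hl : Monotone l)
    (hl' : Monotone l') {δ L b : ℝ} (hδ : 0 < δ) (hLb : L ≤ b)
    (hb : ∀ i, L ≤ l i ∧ l i ≤ b + δ) (hb' : ∀ i, L ≤ l' i ∧ l' i ≤ b + δ)
    (hpos : 0 < ∑ i, ramp (b - δ) δ (l i)) :
    |meanP β l - meanP β l'| ≤ β / 2 * (3 * δ + (b + δ - L) *
      ((2 * ∑ j ∈ Finset.range (⌈(b + δ - L) / (δ / 2)⌉₊ + 1),
        |∑ i, ramp (L + j * (δ / 2)) (δ / 2) (l' i) -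
          ∑ i, ramp (L + j * (δ / 2)) (δ / 2) (l i)|) / ∑ i, ramp (b - δ) δ (l i))) := by
  set S := ∑ j ∈ Finset.range (⌈(b + δ - L) / (δ / 2)⌉₊ + 1),
    |∑ i, ramp (L + j * (δ / 2)) (δ / 2) (l' i) -
      ∑ i, ramp (L + j * (δ / 2)) (δ / 2) (l i)| with hS
  set B := apart δ l l' ∪ apart δ l' l with hBdef
  set T := B ∪ Finset.univ.filter (fun i => b - δ ≤ max (l i) (l' i)) with hTdef
  set z : Fin N → ℝ := fun i => if i ∈ T then b + δ else max (l i) (l' i) with hz
  have hBT : B ⊆ T := Finset.subset_union_left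
  have hTz : ∀ i ∈ T, z i = b + δ := fun i hi => if_pos hi
  have hBcard : (B.card : ℝ) ≤ 2 * S := by
    have h1 := apart_card_le hl hl' hδ (fun i => (hb i).1) (fun i => (hb i).2)
    have h2 := apart_card_le hl' hl hδ (fun i => (hb' i).1) (fun i => (hb' i).2)
    simp only [fun j : ℕ => abs_sub_comm (∑ i, ramp (L + j * (δ / 2)) (δ / 2) (l i))
      (∑ i, ramp (L + j * (δ / 2)) (δ / 2) (l' i))] at h2
    have : (B.card : ℝ) ≤ (apart δ l l').card + (apart δ l' l).card := by
      exact_mod_cast Finset.card_union_le _ _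
    rw [← hS] at h1 h2
    linarith
  have hTcard : ∑ i, ramp (b - δ) δ (l i) ≤ T.card := by
    refine (sum_ramp_le_card hδ l).trans (Nat.cast_le.2 (Finset.card_le_card fun i hi => ?_))
    simp only [Finset.mem_filter, Finset.mem_univ, true_and] at hi
    exact Finset.mem_union_right _ (Finset.mem_filter.2
      ⟨Finset.mem_univ _, hi.le.trans (le_max_left _ _)⟩)
  have hratio : (B.card : ℝ) / T.card ≤ 2 * S / ∑ i, ramp (b - δ) δ (l i) :=
    div_le_div₀ (le_trans (Nat.cast_nonneg _) hBcard) hBcard hpos hTcard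
  have hD : 0 ≤ b + δ - L := by linarith
  have hprop : ∀ i, max (l i) (l' i) ≤ z i ∧ z i ≤ b + δ ∧
      (i ∉ B → z i ≤ l i + 3 * δ ∧ z i ≤ l' i + 3 * δ) := by
    intro i
    refine ⟨?_, ?_, fun hi => ?_⟩
    · simp only [hz]; split_ifs
      · exact max_le (hb i).2 (hb' i).2
      · exact le_rfl
    · simp only [hz]; split_ifs
      · exact le_rfl
      · exact max_le (hb i).2 (hb' i).2
    · simp only [hBdef, Finset.mem_union, not_or, apart, Finset.mem_filter, Finset.mem_univ,
        true_and, not_lt] at hi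
      simp only [hz]
      split_ifs with hiT
      · rcases Finset.mem_union.1 hiT with h | h
        · exfalso
          simp only [hBdef, Finset.mem_union, apart, Finset.mem_filter, Finset.mem_univ,
            true_and] at h
          rcases h with h | h <;> linarith [hi.1, hi.2]
        · simp only [Finset.mem_filter, Finset.mem_univ, true_and, le_max_iff] at h
          rcases h with h | h <;> constructor <;> linarith [hi.1, hi.2]
      · constructor <;> exact max_le (by linarith [hi.2]) (by linarith [hi.1, hi.2])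
  have r1 := meanP_raise hβ hN l z B T (b + δ) (3 * δ) (b + δ - L) (by linarith) hD hBT hTz
    (fun i => (le_max_left _ _).trans (hprop i).1) (fun i hi => ((hprop i).2.2 hi).1)
    fun i => by linarith [(hprop i).2.1, (hb i).1]
  have r2 := meanP_raise hβ hN l' z B T (b + δ) (3 * δ) (b + δ - L) (by linarith) hD hBT hTz
    (fun i => (le_max_right _ _).trans (hprop i).1) (fun i hi => ((hprop i).2.2 hi).2)
    fun i => by linarith [(hprop i).2.1, (hb' i).1]
  have h3 : β / 2 * (3 * δ + (b + δ - L) * ((B.card : ℝ) / T.card)) ≤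
      β / 2 * (3 * δ + (b + δ - L) * (2 * S / ∑ i, ramp (b - δ) δ (l i))) := by
    gcongr
  rw [abs_le]
  constructor <;> linarith [r1.1, r1.2, r2.1, r2.2]

theorem ramp_integral_pos {μ : Measure ℝ} [IsProbabilityMeasure μ] (hμ : IsCompact μ.support)
    {δ : ℝ} (hδ : 0 < δ) : 0 < ∫ x, ramp (sSup μ.support - δ) δ x ∂μ := by
  have hne : μ.support.Nonempty := Measure.nonempty_support (IsProbabilityMeasure.ne_zero μ)
  have hmem := hμ.sSup_mem hne
  have hpos : 0 < μ (Ioi (sSup μ.support - δ)) :=
    (Measure.mem_support_iff_forall _).1 hmem _ (Ioi_mem_nhds (by linarith))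
  rw [integral_pos_iff_support_of_nonneg (fun x => ramp_nonneg _ _ x)
    (BoundedContinuousFunction.integrable μ _)]
  refine hpos.trans_le (measure_mono fun x hx => ?_)
  simp only [Function.mem_support, ramp_apply]
  have h : 0 < (x - (sSup μ.support - δ)) / δ := div_pos (by linarith [mem_Ioi.1 hx]) hδ
  exact (lt_max_of_lt_right (lt_min one_pos h)).ne'

/-- The expected pressure depends asymptotically only on `μ`. -/
theorem meanP_universal {β : ℝ} (hβ : 0 ≤ β) {μ : Measure ℝ} [IsProbabilityMeasure μ]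
    (hμ : IsCompact μ.support) {lam lam' : ∀ N, Fin N → ℝ}
    (h : Admissible μ lam) (h' : Admissible μ lam') :
    Tendsto (fun N => meanP β (lam N) - meanP β (lam' N)) atTop (𝓝 0) := by
  obtain ⟨hw, hup, L₁, hL₁⟩ := h
  obtain ⟨hw', hup', L₂, hL₂⟩ := h'
  set b := sSup μ.support with hb
  set L := min (min L₁ L₂) b with hL
  rw [Metric.tendsto_nhds]
  intro ε hε
  set δ := ε / (3 * (β + 1)) with hδdef
  have hδ : 0 < δ := by rw [hδdef]; positivity
  set p := ∫ x, ramp (b - δ) δ x ∂μ with hp
  have hp0 : 0 < p := ramp_integral_pos hμ hδ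
  set R := Finset.range (⌈(b + δ - L) / (δ / 2)⌉₊ + 1)
  set Q := fun N : ℕ => ∑ j ∈ R,
    |(∑ i, ramp (L + j * (δ / 2)) (δ / 2) (lam' N i)) / (N : ℝ) -
      (∑ i, ramp (L + j * (δ / 2)) (δ / 2) (lam N i)) / (N : ℝ)| with hQ
  have hQ0 : Tendsto Q atTop (𝓝 0) := by
    have : Tendsto Q atTop (𝓝 (∑ j ∈ R,
        |∫ x, ramp (L + j * (δ / 2)) (δ / 2) x ∂μ - ∫ x, ramp (L + j * (δ / 2)) (δ / 2) x ∂μ|)) :=
      tendsto_finsetSum _ fun j _ =>
        ((hw' (ramp (L + j * (δ / 2)) (δ / 2))).sub (hw (ramp (L + j * (δ / 2)) (δ / 2)))).abs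
    simpa using this
  have hE : Tendsto (fun N : ℕ => β / 2 * (3 * δ + (b + δ - L) *
      ((2 * Q N) / ((∑ i, ramp (b - δ) δ (lam N i)) / (N : ℝ))))) atTop
      (𝓝 (β / 2 * (3 * δ + (b + δ - L) * ((2 * 0) / p)))) :=
    ((((hQ0.const_mul 2).div (hw (ramp (b - δ) δ)) hp0.ne').const_mul _).const_add _).const_mul _
  have hlt : β / 2 * (3 * δ + (b + δ - L) * ((2 * 0) / p)) < ε := by
    simp only [mul_zero, zero_div, add_zero, hδdef]
    have : β / 2 * (3 * (ε / (3 * (β + 1)))) = ε * (β / (2 * (β + 1))) := by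
      field_simp
    rw [this]
    refine mul_lt_of_lt_one_right hε ((div_lt_one (by positivity)).2 (by linarith))
  filter_upwards [hE.eventually_lt_const hlt, (hw (ramp (b - δ) δ)).eventually_const_lt hp0,
    hup δ hδ, hup' δ hδ, hL₁, hL₂, eventually_gt_atTop 0] with N hN1 hN2 hu hu' hl₁ hl₂ hN
  have hNr : (0 : ℝ) < N := by exact_mod_cast hN
  set π := Tuple.sort (lam N)
  set π' := Tuple.sort (lam' N)
  have hsum : ∀ (σ : Equiv.Perm (Fin N)) (v : Fin N → ℝ) (f : ℝ → ℝ),
      ∑ i, f ((v ∘ σ) i) = ∑ i, f (v i) := fun σ v f => Equiv.sum_comp σ fun i => f (v i)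
  have hpos : 0 < ∑ i, ramp (b - δ) δ ((lam N ∘ π) i) := by
    rw [hsum π (lam N) (ramp (b - δ) δ)]
    exact (div_pos_iff_of_pos_right hNr).1 hN2
  have hc := compare_sorted hβ hN (Tuple.monotone_sort (lam N)) (Tuple.monotone_sort (lam' N))
    hδ (min_le_right _ _ : L ≤ b)
    (fun i => ⟨((min_le_left _ _).trans (min_le_left _ _)).trans (hl₁ _), hu _⟩)
    (fun i => ⟨((min_le_left _ _).trans (min_le_right _ _)).trans (hl₂ _), hu' _⟩) hpos
  rw [meanP_perm, meanP_perm] at hc
  rw [Real.dist_eq, sub_zero]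
  refine hc.trans_lt (lt_of_le_of_lt (le_of_eq ?_) hN1)
  simp only [fun c w => hsum (Tuple.sort (lam N)) (lam N) (ramp c w),
    fun c w => hsum (Tuple.sort (lam' N)) (lam' N) (ramp c w), hQ, ← sub_div, abs_div,
    abs_of_pos hNr, ← Finset.sum_div, R, hL]
  congr 3
  field_simp

theorem l1_deviation_le (β : ℝ) (lam : Fin N → ℝ) (c : ℝ) :
    ∫ U, |pressure β lam U - c| ∂(orthHaar N) ≤
      √(∫ U, (pressure β lam U - meanP β lam) ^ 2 ∂(orthHaar N)) + |meanP β lam - c| := by
  have hf := continuous_pressure β lam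
  set m := meanP β lam
  have hg : Continuous fun U => |pressure β lam U - m| := (hf.sub continuous_const).abs
  obtain ⟨B, hB⟩ := exists_abs_bound hg
  have h1 := sq_integral_le (μ := orthHaar N) hg.measurable B hB
  simp only [sq_abs] at h1
  have h2 : ∫ U, |pressure β lam U - m| ∂(orthHaar N) ≤
      √(∫ U, (pressure β lam U - m) ^ 2 ∂(orthHaar N)) := Real.le_sqrt_of_sq_le h1
  calc ∫ U, |pressure β lam U - c| ∂(orthHaar N)
      ≤ ∫ U, (|pressure β lam U - m| + |m - c|) ∂(orthHaar N) :=
        integral_mono (integrable_cont (hf.sub continuous_const).abs)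
          ((integrable_cont hg).add (integrable_const _)) fun U => abs_sub_le _ _ _
    _ = (∫ U, |pressure β lam U - m| ∂(orthHaar N)) + |m - c| := by
        rw [integral_add (integrable_cont hg) (integrable_const _)]; simp
    _ ≤ _ := by linarith

theorem self_averaging (β : ℝ) (hβ : 0 ≤ β) (μ : Measure ℝ) [IsProbabilityMeasure μ]
    (hμ : IsCompact μ.support) :
    ∃ c : ℕ → ℝ, ∀ lam : ∀ N, Fin N → ℝ, Admissible μ lam →
      Tendsto (fun N => ∫ U, |pressure β (lam N) U - c N| ∂(orthHaar N)) atTop (𝓝 0) := by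
  by_cases hne : ∃ lam₀, Admissible μ lam₀
  swap
  · exact ⟨fun _ => 0, fun lam h => absurd ⟨lam, h⟩ hne⟩
  obtain ⟨lam₀, h₀⟩ := hne
  refine ⟨fun N => meanP β (lam₀ N), fun lam h => ?_⟩
  obtain ⟨hw, hup, L, hL⟩ := h
  set C := max |L| |sSup μ.support + 1|
  set K := 10000000 * β ^ 2 * (2 + 3 * C ^ 4 + 11 * C ^ 2)
  have hlim : Tendsto (fun N : ℕ => √(K * ((1 + Real.log N) / N)) +
      |meanP β (lam N) - meanP β (lam₀ N)|) atTop (𝓝 (√(K * 0) + |(0 : ℝ)|)) := by
    refine Tendsto.add ((Tendsto.const_mul K ?_).sqrt)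
      ((meanP_universal hβ hμ ⟨hw, hup, L, hL⟩ h₀).abs)
    have h1 : Tendsto (fun x : ℝ => (1 + Real.log x) / x) atTop (𝓝 0) := by
      have := (tendsto_inv_atTop_zero (𝕜 := ℝ)).add
        Real.isLittleO_log_id_atTop.tendsto_div_nhds_zero
      simpa [add_div] using this
    exact h1.comp tendsto_natCast_atTop_atTop
  simp only [mul_zero, Real.sqrt_zero, abs_zero, add_zero] at hlim
  refine squeeze_zero' (Eventually.of_forall fun N => integral_nonneg fun U => abs_nonneg _) ?_ hlim
  filter_upwards [hup 1 one_pos, hL] with N hu hl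
  refine (l1_deviation_le β (lam N) _).trans (add_le_add ?_ le_rfl)
  refine Real.sqrt_le_sqrt (pressure_variance_le β (C := C) fun i => abs_le.2 ⟨?_, ?_⟩)
  · have : -C ≤ -|L| := neg_le_neg (le_max_left _ _)
    linarith [neg_abs_le L, hl i]
  · have : |sSup μ.support + 1| ≤ C := le_max_right _ _
    linarith [le_abs_self (sSup μ.support + 1), hu i]

end Vale.Agent.P166
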