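import Vale.Agent.P166.Haar

open MeasureTheory Matrix Set Function

namespace Vale.Agent.P166

variable {N : ℕ}

/-- The vector of signs attached to a configuration. -/
def spin (s : Fin N → Bool) : Fin N → ℝ := fun i => if s i then 1 else -1

/-- The pressure `N⁻¹ log [2^{-N} ∑_σ exp (β/2 σᵀ Uᵀ Λ U σ)]`. -/
noncomputable def pressure (β : ℝ) (lam : Fin N → ℝ) (U : OG N) : ℝ :=
  Real.log (((2 : ℝ) ^ N)⁻¹ * ∑ s : Fin N → Bool, Real.exp (β / 2 *
    (spin s ⬝ᵥ ((U : Matrix (Fin N) (Fin N) ℝ)ᵀ * Matrix.diagonal lam *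
      (U : Matrix (Fin N) (Fin N) ℝ)) *ᵥ spin s))) / N

/-- The coupling matrix acting on vectors. -/
noncomputable def Jv (lam : Fin N → ℝ) (U : OG N) (x : Fin N → ℝ) : Fin N → ℝ :=
  act U⁻¹ (lam * act U x)

theorem Jv_eq (lam : Fin N → ℝ) (U : OG N) (x : Fin N → ℝ) :
    ((U : Matrix (Fin N) (Fin N) ℝ)ᵀ * Matrix.diagonal lam *
      (U : Matrix (Fin N) (Fin N) ℝ)) *ᵥ x = Jv lam U x := by
  have hinv : ((U⁻¹ : OG N) : Matrix (Fin N) (Fin N) ℝ) =
      (U : Matrix (Fin N) (Fin N) ℝ)ᵀ := by
    ext i j; rfl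
  simp only [Jv, act, hinv, ← Matrix.mulVec_mulVec]
  congr 1
  funext i
  simp [Matrix.mulVec_diagonal]

theorem dot_Jv (lam : Fin N → ℝ) (U : OG N) (x y : Fin N → ℝ) :
    x ⬝ᵥ Jv lam U y = ∑ i, lam i * act U y i * act U x i := by
  rw [dotProduct_comm, Jv, act_inv_dot]
  simp [dotProduct]

theorem Jv_symm (lam : Fin N → ℝ) (U : OG N) (x y : Fin N → ℝ) :
    x ⬝ᵥ Jv lam U y = Jv lam U x ⬝ᵥ y := by
  rw [dotProduct_comm (Jv lam U x), dot_Jv, dot_Jv]
  exact Finset.sum_congr rfl fun i _ => by ring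

theorem Jv_sub (lam : Fin N → ℝ) (U : OG N) (x y : Fin N → ℝ) :
    Jv lam U (x - y) = Jv lam U x - Jv lam U y := by
  rw [Jv, Jv, Jv, act_sub, mul_sub, act_sub]

theorem Jv_smul (lam : Fin N → ℝ) (U : OG N) (a : ℝ) (x : Fin N → ℝ) :
    Jv lam U (a • x) = a • Jv lam U x := by
  rw [Jv, Jv, act_smul, mul_smul_comm, act_smul]

theorem Jv_norm_le {lam : Fin N → ℝ} {C : ℝ} (hC : ∀ i, |lam i| ≤ C) (U : OG N)
    (x : Fin N → ℝ) : Jv lam U x ⬝ᵥ Jv lam U x ≤ C ^ 2 * (x ⬝ᵥ x) := by
  rw [← act_dot U x x, Jv, act_dot]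
  simp only [dotProduct, Finset.mul_sum, Pi.mul_apply]
  refine Finset.sum_le_sum fun i _ => ?_
  have h1 : lam i ^ 2 ≤ C ^ 2 := by
    have hb := abs_le.1 (hC i)
    exact sq_le_sq' hb.1 hb.2
  nlinarith [sq_nonneg (act U x i)]

theorem dot_sq_le (x y : Fin N → ℝ) : (x ⬝ᵥ y) ^ 2 ≤ (x ⬝ᵥ x) * (y ⬝ᵥ y) := by
  have h := Finset.sum_mul_sq_le_sq_mul_sq Finset.univ x y
  simpa [dotProduct, sq] using h

theorem quad_abs_le {lam : Fin N → ℝ} {C : ℝ} (hC : ∀ i, |lam i| ≤ C) (U : OG N)
    (x : Fin N → ℝ) : |x ⬝ᵥ Jv lam U x| ≤ C * (x ⬝ᵥ x) := by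
  rw [dot_Jv, ← act_dot U x x]
  refine (Finset.abs_sum_le_sum_abs _ _).trans ?_
  simp only [dotProduct, Finset.mul_sum]
  refine Finset.sum_le_sum fun i _ => ?_
  rw [mul_assoc, abs_mul, abs_mul_self]
  exact mul_le_mul_of_nonneg_right (hC i) (mul_self_nonneg _)

/-- The energy of a configuration. -/
noncomputable def en (lam : Fin N → ℝ) (U : OG N) (s : Fin N → Bool) : ℝ :=
  spin s ⬝ᵥ Jv lam U (spin s)

theorem en_eq (lam : Fin N → ℝ) (U : OG N) (s : Fin N → Bool) :
    en lam U s = ∑ i, lam i * act U (spin s) i ^ 2 := by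
  rw [en, dot_Jv]
  exact Finset.sum_congr rfl fun i _ => by ring

theorem spin_sq (s : Fin N → Bool) (i : Fin N) : spin s i ^ 2 = 1 := by
  unfold spin; split_ifs <;> norm_num

theorem spin_abs (s : Fin N → Bool) (i : Fin N) : |spin s i| = 1 := by
  unfold spin; split_ifs <;> norm_num

theorem spin_dot (s : Fin N → Bool) : spin s ⬝ᵥ spin s = N := by
  simp [dotProduct, ← sq, spin_sq]

/-- The partition function. -/
noncomputable def part (β : ℝ) (lam : Fin N → ℝ) (U : OG N) : ℝ :=
  ∑ s : Fin N → Bool, Real.exp (β / 2 * en lam U s)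

theorem part_pos (β : ℝ) (lam : Fin N → ℝ) (U : OG N) : 0 < part β lam U :=
  Finset.sum_pos (fun _ _ => Real.exp_pos _) Finset.univ_nonempty

theorem pressure_eq (β : ℝ) (lam : Fin N → ℝ) (U : OG N) :
    pressure β lam U = (Real.log (part β lam U) - Real.log ((2 : ℝ) ^ N)) / N := by
  simp only [pressure, Jv_eq]
  congr 1
  rw [show (∑ s : Fin N → Bool, Real.exp (β / 2 * (spin s ⬝ᵥ Jv lam U (spin s)))) =
    part β lam U from rfl, inv_mul_eq_div, Real.log_div (part_pos β lam U).ne' (by positivity)]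

/-- Gibbs averages. -/
noncomputable def gib (β : ℝ) (lam : Fin N → ℝ) (U : OG N) (F : (Fin N → Bool) → ℝ) : ℝ :=
  (∑ s : Fin N → Bool, Real.exp (β / 2 * en lam U s) * F s) / part β lam U

theorem gib_mono (β : ℝ) (lam : Fin N → ℝ) (U : OG N) {F G : (Fin N → Bool) → ℝ}
    (h : ∀ s, F s ≤ G s) : gib β lam U F ≤ gib β lam U G := by
  unfold gib
  exact div_le_div_of_nonneg_right (Finset.sum_le_sum fun s _ =>
    mul_le_mul_of_nonneg_left (h s) (Real.exp_pos _).le) (part_pos β lam U).le

theorem gib_const (β : ℝ) (lam : Fin N → ℝ) (U : OG N) (c : ℝ) :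
    gib β lam U (fun _ => c) = c := by
  unfold gib
  rw [← Finset.sum_mul]
  exact mul_div_cancel_left₀ c (part_pos β lam U).ne'

theorem gib_nonneg (β : ℝ) (lam : Fin N → ℝ) (U : OG N) {F : (Fin N → Bool) → ℝ}
    (h : ∀ s, 0 ≤ F s) : 0 ≤ gib β lam U F :=
  (gib_const β lam U 0).symm.le.trans (gib_mono β lam U h)

theorem gib_add (β : ℝ) (lam : Fin N → ℝ) (U : OG N) (F G : (Fin N → Bool) → ℝ) :
    gib β lam U (fun s => F s + G s) = gib β lam U F + gib β lam U G := by
  simp only [gib, mul_add, Finset.sum_add_distrib, add_div]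

theorem gib_const_mul (β : ℝ) (lam : Fin N → ℝ) (U : OG N) (c : ℝ)
    (F : (Fin N → Bool) → ℝ) :
    gib β lam U (fun s => c * F s) = c * gib β lam U F := by
  simp only [gib, mul_div_assoc', Finset.mul_sum]
  congr 1
  exact Finset.sum_congr rfl fun s _ => by ring

theorem gib_sum {ι : Type*} (t : Finset ι) (β : ℝ) (lam : Fin N → ℝ) (U : OG N)
    (F : ι → (Fin N → Bool) → ℝ) :
    gib β lam U (fun s => ∑ i ∈ t, F i s) = ∑ i ∈ t, gib β lam U (F i) := by
  simp only [gib, Finset.mul_sum, Finset.sum_div]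
  exact Finset.sum_comm

theorem gib_sq_le (β : ℝ) (lam : Fin N → ℝ) (U : OG N) (F : (Fin N → Bool) → ℝ) :
    gib β lam U F ^ 2 ≤ gib β lam U (fun s => F s ^ 2) := by
  have h := gib_nonneg β lam U (F := fun s => (F s - gib β lam U F) ^ 2) (fun s => sq_nonneg _)
  have e : (fun s => (F s - gib β lam U F) ^ 2) =
      fun s => F s ^ 2 + (-(2 * gib β lam U F) * F s + gib β lam U F ^ 2) := by
    funext s; ring
  rw [e, gib_add, gib_add, gib_const_mul, gib_const] at h
  nlinarith

/-- The tangent inequality. -/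
theorem pressure_tangent (β : ℝ) (lam lam' : Fin N → ℝ) (U U' : OG N) :
    pressure β lam' U' - pressure β lam U ≤
      β / 2 / N * gib β lam' U' (fun s => en lam' U' s - en lam U s) := by
  set m := gib β lam' U' (fun s => β / 2 * en lam U s - β / 2 * en lam' U' s) with hm
  have hm' : m = -(β / 2) * gib β lam' U' (fun s => en lam' U' s - en lam U s) := by
    rw [hm, ← gib_const_mul]
    congr 1; funext s; ring
  have hsum : (∑ s : Fin N → Bool, Real.exp (β / 2 * en lam' U' s) *
      (β / 2 * en lam U s - β / 2 * en lam' U' s)) = m * part β lam' U' := by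
    rw [hm, gib, div_mul_cancel₀ _ (part_pos β lam' U').ne']
  have key : part β lam' U' * Real.exp m ≤ part β lam U := by
    have hterm : ∀ s : Fin N → Bool,
        Real.exp (β / 2 * en lam' U' s) * Real.exp m *
          (1 + (β / 2 * en lam U s - β / 2 * en lam' U' s - m)) ≤
        Real.exp (β / 2 * en lam U s) := by
      intro s
      have h := Real.add_one_le_exp (β / 2 * en lam U s - β / 2 * en lam' U' s - m)
      have hp : 0 ≤ Real.exp (β / 2 * en lam' U' s) * Real.exp m := by positivity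
      calc _ ≤ Real.exp (β / 2 * en lam' U' s) * Real.exp m *
            Real.exp (β / 2 * en lam U s - β / 2 * en lam' U' s - m) :=
            mul_le_mul_of_nonneg_left (by linarith) hp
        _ = _ := by rw [← Real.exp_add, ← Real.exp_add]; congr 1; ring
    refine le_trans (le_of_eq ?_) (Finset.sum_le_sum fun s _ => hterm s)
    have e : ∀ s : Fin N → Bool, Real.exp (β / 2 * en lam' U' s) * Real.exp m *
          (1 + (β / 2 * en lam U s - β / 2 * en lam' U' s - m)) =
        Real.exp m * ((1 - m) * Real.exp (β / 2 * en lam' U' s) +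
          Real.exp (β / 2 * en lam' U' s) *
            (β / 2 * en lam U s - β / 2 * en lam' U' s)) := fun s => by ring
    simp only [e, ← Finset.mul_sum, Finset.sum_add_distrib, hsum]
    change part β lam' U' * Real.exp m =
      Real.exp m * ((1 - m) * part β lam' U' + m * part β lam' U')
    ring
  have hl := Real.log_le_log (mul_pos (part_pos β lam' U') (Real.exp_pos m)) key
  rw [Real.log_mul (part_pos β lam' U').ne' (Real.exp_pos m).ne', Real.log_exp] at hl
  rw [pressure_eq, pressure_eq, ← sub_div, div_mul_eq_mul_div]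
  refine div_le_div_of_nonneg_right ?_ (Nat.cast_nonneg N)
  nlinarith [hl, hm']

theorem continuous_Jv (lam : Fin N → ℝ) (x : Fin N → ℝ) :
    Continuous fun U : OG N => Jv lam U x :=
  Continuous.matrix_mulVec (continuous_subtype_val.comp continuous_inv)
    (continuous_const.mul (continuous_act x))

theorem continuous_en (lam : Fin N → ℝ) (s : Fin N → Bool) :
    Continuous fun U : OG N => en lam U s :=
  Continuous.dotProduct continuous_const (continuous_Jv lam _)

theorem continuous_part (β : ℝ) (lam : Fin N → ℝ) :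
    Continuous fun U : OG N => part β lam U :=
  continuous_finsetSum _ fun s _ =>
    Real.continuous_exp.comp (continuous_const.mul (continuous_en lam s))

theorem continuous_pressure (β : ℝ) (lam : Fin N → ℝ) : Continuous (pressure β lam) := by
  rw [show pressure β lam =
    fun U => (Real.log (part β lam U) - Real.log ((2 : ℝ) ^ N)) / N from
    funext fun U => pressure_eq β lam U]
  exact (((continuous_part β lam).log fun U => (part_pos β lam U).ne').sub
    continuous_const).div_const _

theorem continuous_gib {X : Type*} [TopologicalSpace X] (β : ℝ) (lam : Fin N → ℝ)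
    {u : X → OG N} (hu : Continuous u) {F : X → (Fin N → Bool) → ℝ}
    (hF : ∀ s, Continuous fun z => F z s) : Continuous fun z => gib β lam (u z) (F z) := by
  refine Continuous.div ?_ ((continuous_part β lam).comp hu) fun z => (part_pos β lam (u z)).ne'
  exact continuous_finsetSum _ fun s _ =>
    (Real.continuous_exp.comp (continuous_const.mul ((continuous_en lam s).comp hu))).mul (hF s)

/-- Permuting two coordinates of the configuration. -/
def swapCfg (a b : Fin N) (s : Fin N → Bool) : Fin N → Bool := fun i => s (Equiv.swap a b i)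

theorem swapCfg_swapCfg (a b : Fin N) (s : Fin N → Bool) :
    swapCfg a b (swapCfg a b s) = s := by
  funext i; simp [swapCfg]

theorem act_swap_spin {a b : Fin N} (hab : a ≠ b) (s : Fin N → Bool) :
    act (refl (ev a - ev b)) (spin s) = spin (swapCfg a b s) := by
  funext i
  rw [act_refl_swap hab]
  rfl

theorem Jv_mul_right (lam : Fin N → ℝ) (U M : OG N) (x : Fin N → ℝ) :
    Jv lam (U * M) x = act M⁻¹ (Jv lam U (act M x)) := by
  rw [Jv, Jv, _root_.mul_inv_rev, act_mul, act_mul]

theorem en_mul_right (lam : Fin N → ℝ) (U M : OG N) (s : Fin N → Bool) :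
    en lam (U * M) s = act M (spin s) ⬝ᵥ Jv lam U (act M (spin s)) := by
  rw [en, Jv_mul_right, dotProduct_comm, act_inv_dot, dotProduct_comm]

theorem en_swap_right {a b : Fin N} (hab : a ≠ b) (lam : Fin N → ℝ) (U : OG N)
    (s : Fin N → Bool) :
    en lam (U * refl (ev a - ev b)) s = en lam U (swapCfg a b s) := by
  rw [en_mul_right, act_swap_spin hab]
  rfl

theorem part_swap_right {a b : Fin N} (hab : a ≠ b) (β : ℝ) (lam : Fin N → ℝ) (U : OG N) :
    part β lam (U * refl (ev a - ev b)) = part β lam U := by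
  simp only [part, en_swap_right hab]
  exact Fintype.sum_bijective (swapCfg a b)
    (Function.Involutive.bijective (swapCfg_swapCfg a b)) _ _ fun s => rfl

theorem gib_swap_right {a b : Fin N} (hab : a ≠ b) (β : ℝ) (lam : Fin N → ℝ) (U : OG N)
    (F : (Fin N → Bool) → ℝ) :
    gib β lam (U * refl (ev a - ev b)) F = gib β lam U (fun s => F (swapCfg a b s)) := by
  simp only [gib, part_swap_right hab, en_swap_right hab]
  congr 1
  exact Fintype.sum_bijective (swapCfg a b)
    (Function.Involutive.bijective (swapCfg_swapCfg a b)) _ _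
    fun s => by rw [swapCfg_swapCfg]

theorem en_swap_left {a b : Fin N} (hab : a ≠ b) (lam : Fin N → ℝ) (U : OG N)
    (s : Fin N → Bool) :
    en lam (refl (ev a - ev b) * U) s = en (fun i => lam (Equiv.swap a b i)) U s := by
  rw [en_eq, en_eq]
  simp only [act_mul, act_refl_swap hab]
  rw [← Equiv.sum_comp (Equiv.swap a b)
    (fun i => lam i * act U (spin s) (Equiv.swap a b i) ^ 2)]
  simp

theorem pressure_swap_left {a b : Fin N} (hab : a ≠ b) (β : ℝ) (lam : Fin N → ℝ) (U : OG N) :
    pressure β (fun i => lam (Equiv.swap a b i)) U =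
      pressure β lam (refl (ev a - ev b) * U) := by
  simp only [pressure_eq, part, en_swap_left hab]

theorem gib_swap_left {a b : Fin N} (hab : a ≠ b) (β : ℝ) (lam : Fin N → ℝ) (U : OG N)
    (F : (Fin N → Bool) → ℝ) :
    gib β lam (refl (ev a - ev b) * U) F = gib β (fun i => lam (Equiv.swap a b i)) U F := by
  simp only [gib, part, en_swap_left hab]

/-- Mean squared local field, averaged over `U`. -/
theorem field_sq_mean_le (β : ℝ) {lam : Fin N → ℝ} {C : ℝ} (hC : ∀ i, |lam i| ≤ C) (k : Fin N) :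
    ∫ U, gib β lam U (fun s => Jv lam U (spin s) k ^ 2) ∂(orthHaar N) ≤ C ^ 2 := by
  set I := fun i : Fin N =>
    ∫ U, gib β lam U (fun s => Jv lam U (spin s) i ^ 2) ∂(orthHaar N) with hI
  have hcont : ∀ i : Fin N,
      Continuous fun U : OG N => gib β lam U (fun s => Jv lam U (spin s) i ^ 2) := fun i =>
    continuous_gib β lam continuous_id fun s =>
      ((continuous_apply i).comp (continuous_Jv lam _)).pow 2
  have heq : ∀ i, I i = I k := by
    intro i
    rcases eq_or_ne i k with rfl | hik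
    · rfl
    · simp only [hI]
      rw [← integral_mul_right_eq_self (μ := orthHaar N)
        (fun U => gib β lam U (fun s => Jv lam U (spin s) i ^ 2)) (refl (ev i - ev k))]
      refine integral_congr_ae (Filter.Eventually.of_forall fun U => ?_)
      simp only [gib_swap_right hik]
      congr 1
      funext s
      rw [Jv_mul_right, refl_inv, act_refl_swap hik, Equiv.swap_apply_left,
        act_swap_spin hik, swapCfg_swapCfg]
  have hsum : ∑ i, I i ≤ C ^ 2 * N := by
    simp only [hI]
    rw [← integral_finsetSum _ fun i _ => integrable_cont (hcont i)]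
    have hb : ∀ U : OG N, (∑ i, gib β lam U (fun s => Jv lam U (spin s) i ^ 2)) ≤ C ^ 2 * N := by
      intro U
      rw [← gib_sum, ← gib_const β lam U (C ^ 2 * N)]
      refine gib_mono β lam U fun s => ?_
      have := Jv_norm_le hC U (spin s)
      rw [spin_dot] at this
      simpa [dotProduct, sq] using this
    calc _ ≤ ∫ _ : OG N, C ^ 2 * (N : ℝ) ∂(orthHaar N) :=
          integral_mono (integrable_finsetSum _ fun i _ => integrable_cont (hcont i))
            (integrable_const _) hb
      _ = _ := by simp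
  simp only [heq, Finset.sum_const, Finset.card_univ, Fintype.card_fin, nsmul_eq_mul] at hsum
  have hN : (0 : ℝ) < N := by exact_mod_cast Nat.lt_of_le_of_lt (Nat.zero_le _) k.isLt
  change I k ≤ C ^ 2
  nlinarith

end Vale.Agent.P166
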