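import Vale.Agent.P166.Conc

open MeasureTheory Matrix Set Function

namespace Vale.Agent.P166

variable {N : ℕ}

theorem fourth_moment (k : Fin N) (x : Fin N → ℝ) :
    ∫ g, act g x k ^ 4 ∂(mk N (k.val + 1)) ≤
      3 * (∑ i ∈ Finset.Iic k, x i ^ 2) ^ 2 / ((k.val : ℝ) + 1) ^ 2 := by
  set μ := mk N (k.val + 1) with hμ
  have hc : ∀ i, Continuous fun g : OG N => act g x i :=
    fun i => (continuous_apply i).comp (continuous_act x)
  set M := fun i => ∫ g, act g x i ^ 4 ∂μ with hM
  have hmem : ∀ i : Fin N, i ≤ k → ∀ j : Fin N, k.val + 1 ≤ j.val → ev i j = 0 := by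
    intro i hi j hj
    have : j ≠ i := fun e => by subst e; exact absurd (Fin.le_def.1 hi) (by omega)
    simp [ev, this]
  have hMk : ∀ i ∈ Finset.Iic k, M i = M k := by
    intro i hi
    have hik' : i ≤ k := Finset.mem_Iic.1 hi
    rcases eq_or_ne i k with rfl | hik
    · rfl
    · have hu : refl (ev i - ev k) ∈ fixSub N (k.val + 1) :=
        refl_mem_fixSub fun j hj => by simp [hmem i hik' j hj, hmem k le_rfl j hj]
      have h := mk_left hu ((hc i).pow 4).measurable
      simp only [act_mul, Pi.pow_apply, act_refl_swap hik, Equiv.swap_apply_left] at h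
      simp only [hM, hμ]
      exact h.symm
  have hX : ∀ i ∈ Finset.Iic k, ∀ j ∈ Finset.Iic k,
      ∫ g, act g x i ^ 2 * act g x j ^ 2 ∂μ = if i = j then M k else M k / 3 := by
    intro i hi j hj
    split_ifs with hij
    · subst hij
      rw [← hMk i hi]
      simp only [hM]
      exact integral_congr_ae (Filter.Eventually.of_forall fun g => by ring)
    · set r := 1 / Real.sqrt 2 with hr
      have hr2 : r ^ 2 = 1 / 2 := by
        rw [hr, div_pow, one_pow, Real.sq_sqrt (by norm_num : (0 : ℝ) ≤ 2)]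
      have hr1 : r ≠ 1 := fun h => by rw [h] at hr2; norm_num at hr2
      set w := (1 - r) • ev i - r • ev j with hw
      have hu : refl w ∈ fixSub N (k.val + 1) := refl_mem_fixSub fun l hl => by
        simp [hw, hmem i (Finset.mem_Iic.1 hi) l hl, hmem j (Finset.mem_Iic.1 hj) l hl]
      have hwi : w i = 1 - r := by simp [hw, ev, hij]
      have hwj : w j = -r := by simp [hw, ev, Ne.symm hij]
      have hwy : ∀ y : Fin N → ℝ, w ⬝ᵥ y = (1 - r) * y i - r * y j := by
        intro y
        rw [hw, sub_dotProduct, smul_dotProduct, smul_dotProduct, ev_dot, ev_dot]; simp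
      have hww : w ⬝ᵥ w = 2 * (1 - r) := by
        rw [hwy, hwi, hwj]; linear_combination 2 * hr2
      have hne : (1 - r) ≠ 0 := sub_ne_zero.2 (Ne.symm hr1)
      have hyi : ∀ y, act (refl w) y i = r * (y i + y j) := by
        intro y
        simp only [act_refl, Pi.sub_apply, Pi.smul_apply, smul_eq_mul, hww, hwy, hwi]
        field_simp
        ring
      have hyj : ∀ y, act (refl w) y j = r * (y i - y j) := by
        intro y
        simp only [act_refl, Pi.sub_apply, Pi.smul_apply, smul_eq_mul, hww, hwy, hwj]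
        field_simp
        linear_combination (-2 * y j) * hr2
      have h1 := mk_left hu ((hc i).pow 4).measurable
      have h2 := mk_left hu ((hc j).pow 4).measurable
      simp only [act_mul, Pi.pow_apply, hyi, hyj] at h1 h2
      have e1 : ∫ g, act g x i ^ 4 ∂μ = M k := hMk i hi
      have e2 : ∫ g, act g x j ^ 4 ∂μ = M k := hMk j hj
      rw [e1] at h1
      rw [e2] at h2
      set F := fun g : OG N => (r * (act g x i + act g x j)) ^ 4 with hF
      set F' := fun g : OG N => (r * (act g x i - act g x j)) ^ 4 with hF'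
      set P := fun g : OG N => act g x i ^ 2 * act g x j ^ 2 with hP
      have iF : Integrable F μ := integrable_cont ((continuous_const.mul ((hc i).add (hc j))).pow 4)
      have iF' : Integrable F' μ :=
        integrable_cont ((continuous_const.mul ((hc i).sub (hc j))).pow 4)
      have ia : Integrable (fun g => act g x i ^ 4) μ := integrable_cont ((hc i).pow 4)
      have ib : Integrable (fun g => act g x j ^ 4) μ := integrable_cont ((hc j).pow 4)
      have iP : Integrable P μ := integrable_cont (((hc i).pow 2).mul ((hc j).pow 2))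
      have e : (fun g => F g + F' g) =
          fun g => (act g x i ^ 4 + act g x j ^ 4) / 2 + 3 * P g := by
        funext g
        simp only [hF, hF', hP]
        linear_combination
          (2 * (act g x i ^ 4 + 6 * act g x i ^ 2 * act g x j ^ 2 + act g x j ^ 4)) *
            (r ^ 2 + 1 / 2) * hr2
      have e' : ∫ g, F g + F' g ∂μ =
          ∫ g, (act g x i ^ 4 + act g x j ^ 4) / 2 + 3 * P g ∂μ := by rw [e]
      rw [integral_add iF iF', integral_add (f := fun g => (act g x i ^ 4 + act g x j ^ 4) / 2)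
        ((ia.add ib).div_const 2) (iP.const_mul 3), integral_div, integral_add ia ib,
        integral_const_mul, h1, h2, e1, e2] at e'
      linarith
  have hS : ∀ᵐ g ∂μ, (∑ i ∈ Finset.Iic k, act g x i ^ 2) = ∑ i ∈ Finset.Iic k, x i ^ 2 := by
    filter_upwards [mk_mem N (k.val + 1)] with g hg
    have h := act_dot g x x
    simp only [dotProduct, ← sq] at h
    rw [← Finset.sum_add_sum_compl (Finset.Iic k) (fun i => act g x i ^ 2),
      ← Finset.sum_add_sum_compl (Finset.Iic k) (fun i => x i ^ 2)] at h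
    have hrest : ∑ i ∈ (Finset.Iic k)ᶜ, act g x i ^ 2 = ∑ i ∈ (Finset.Iic k)ᶜ, x i ^ 2 := by
      refine Finset.sum_congr rfl fun i hi => ?_
      rw [act_apply_fixed hg x i]
      simp only [Finset.mem_compl, Finset.mem_Iic, not_le] at hi
      exact Fin.lt_def.1 hi
    linarith
  have hq : ∀ i j, Integrable (fun g => act g x i ^ 2 * act g x j ^ 2) μ :=
    fun i j => integrable_cont (((hc i).pow 2).mul ((hc j).pow 2))
  have e : ∫ g, (∑ i ∈ Finset.Iic k, act g x i ^ 2) ^ 2 ∂μ =
      (∑ i ∈ Finset.Iic k, x i ^ 2) ^ 2 := by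
    rw [integral_congr_ae (hS.mono fun g hg => congrArg (· ^ 2) hg)]
    simp
  simp only [sq (∑ i ∈ Finset.Iic k, act _ x i ^ 2), Finset.sum_mul_sum] at e
  rw [integral_finsetSum _ fun i _ => integrable_finsetSum _ fun j _ => hq i j] at e
  simp only [integral_finsetSum _ fun j _ => hq _ j] at e
  have hval : ∀ i ∈ Finset.Iic k, ∑ j ∈ Finset.Iic k,
      ∫ g, act g x i ^ 2 * act g x j ^ 2 ∂μ =
        ((k.val : ℝ) + 1) * (M k / 3) + 2 * (M k / 3) := by
    intro i hi
    have hs : ∀ j : Fin N, (if i = j then M k else M k / 3) =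
        M k / 3 + if i = j then 2 * (M k / 3) else 0 := fun j => by split_ifs <;> ring
    rw [Finset.sum_congr rfl fun j hj => hX i hi j hj]
    simp only [hs, Finset.sum_add_distrib, Finset.sum_const, Fin.card_Iic, nsmul_eq_mul,
      Finset.sum_ite_eq, hi, if_true]
    push_cast; ring
  rw [Finset.sum_congr rfl hval, Finset.sum_const, Fin.card_Iic, nsmul_eq_mul] at e
  push_cast at e
  change M k ≤ _
  rw [le_div_iff₀ (by positivity)]
  have hM0 : 0 ≤ M k := integral_nonneg fun g => by positivity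
  nlinarith [mul_nonneg hM0 (Nat.cast_nonneg k.val : (0 : ℝ) ≤ k.val)]

theorem fourth_spin (k : Fin N) (s : Fin N → Bool) :
    ∫ g, act g (spin s) k ^ 4 ∂(mk N (k.val + 1)) ≤ 3 := by
  refine (fourth_moment k _).trans (le_of_eq ?_)
  simp only [spin_sq, Finset.sum_const, Fin.card_Iic, nsmul_eq_mul, mul_one]
  push_cast
  field_simp

theorem fourth_field (k : Fin N) {lam : Fin N → ℝ} {C : ℝ} (hC : ∀ i, |lam i| ≤ C) (U : OG N)
    (s : Fin N → Bool) :
    ∫ g, act g (Jv lam U (spin s)) k ^ 4 ∂(mk N (k.val + 1)) ≤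
      3 * C ^ 4 * (N : ℝ) ^ 2 / ((k.val : ℝ) + 1) ^ 2 := by
  refine (fourth_moment k _).trans (div_le_div_of_nonneg_right ?_ (by positivity))
  have h := Jv_norm_le hC U (spin s)
  rw [spin_dot] at h
  simp only [dotProduct, ← sq] at h
  have h2 : (∑ i ∈ Finset.Iic k, Jv lam U (spin s) i ^ 2) ≤ C ^ 2 * N :=
    le_trans (Finset.sum_le_sum_of_subset_of_nonneg (Finset.subset_univ _)
      fun i _ _ => sq_nonneg _) h
  have h3 : 0 ≤ ∑ i ∈ Finset.Iic k, Jv lam U (spin s) i ^ 2 :=
    Finset.sum_nonneg fun i _ => sq_nonneg _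
  nlinarith [pow_le_pow_left₀ h3 h2 2]

theorem refl_neg (w : Fin N → ℝ) : refl (-w) = refl w :=
  og_ext fun x => by
    rw [act_refl, act_refl, neg_dotProduct, neg_dotProduct, dotProduct_neg, neg_neg]
    funext i
    simp
    ring

/-- The quantity dominating the squared change of energy in one step. -/
noncomputable def dom (C : ℝ) (k : Fin N) (lam : Fin N → ℝ) (U g : OG N) (s : Fin N → Bool) :
    ℝ :=
  10000000 * ((1 + act g (spin s) k ^ 2) *
    (act g (Jv lam U (spin s)) k ^ 2 + Jv lam U (spin s) k ^ 2 +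
      C ^ 2 * (1 + act g (spin s) k ^ 2)))

theorem col_dot (k : Fin N) (g : OG N) (x : Fin N → ℝ) :
    act g⁻¹ (ev k) ⬝ᵥ x = act g x k := by
  rw [act_inv_dot, ev_dot]

theorem refl_quad_le {lam : Fin N → ℝ} {C : ℝ} (hC : ∀ i, |lam i| ≤ C) (U : OG N)
    (w x : Fin N → ℝ) (hw : 2 ≤ w ⬝ᵥ w) :
    |act (refl w) x ⬝ᵥ Jv lam U (act (refl w) x) - x ⬝ᵥ Jv lam U x| ≤
      2 * |w ⬝ᵥ x| * |w ⬝ᵥ Jv lam U x| + 2 * C * (w ⬝ᵥ x) ^ 2 := by
  set a := 2 * (w ⬝ᵥ x) / (w ⬝ᵥ w) with ha
  have e : act (refl w) x ⬝ᵥ Jv lam U (act (refl w) x) - x ⬝ᵥ Jv lam U x =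
      -(2 * a * (w ⬝ᵥ Jv lam U x)) + a ^ 2 * (w ⬝ᵥ Jv lam U w) := by
    rw [act_refl, ← ha]
    simp only [Jv_sub, Jv_smul, sub_dotProduct, dotProduct_sub, smul_dotProduct, dotProduct_smul,
      smul_eq_mul]
    rw [Jv_symm lam U x w, dotProduct_comm (Jv lam U x) w]
    ring
  have hpos : (0 : ℝ) < w ⬝ᵥ w := by linarith
  have hle : |a| ≤ |w ⬝ᵥ x| := by
    rw [ha, abs_div, abs_of_pos hpos, div_le_iff₀ hpos, abs_mul]
    norm_num
    nlinarith [abs_nonneg (w ⬝ᵥ x)]
  have hq := quad_abs_le hC U w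
  have haw : a ^ 2 * (w ⬝ᵥ w) = 4 * (w ⬝ᵥ x) ^ 2 / (w ⬝ᵥ w) := by
    rw [ha]; field_simp; ring
  rw [e]
  refine (abs_add_le _ _).trans (add_le_add ?_ ?_)
  · rw [abs_neg, abs_mul, abs_mul, abs_of_pos (two_pos : (0 : ℝ) < 2)]
    gcongr
  · have hC0 : 0 ≤ C := by
      rcases isEmpty_or_nonempty (Fin N) with h | h
      · exact absurd hw (by simp [dotProduct])
      · exact (abs_nonneg _).trans (hC (Classical.arbitrary _))
    rw [abs_mul, abs_of_nonneg (sq_nonneg a)]
    refine (mul_le_mul_of_nonneg_left hq (sq_nonneg a)).trans ?_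
    rw [mul_left_comm, haw]
    rw [show 2 * C * (w ⬝ᵥ x) ^ 2 = C * (2 * (w ⬝ᵥ x) ^ 2) by ring]
    refine mul_le_mul_of_nonneg_left ?_ hC0
    rw [div_le_iff₀ hpos]
    nlinarith [sq_nonneg (w ⬝ᵥ x)]

theorem flip_quad_le {lam : Fin N → ℝ} {C : ℝ} (hC : ∀ i, |lam i| ≤ C) (U : OG N)
    (k : Fin N) (x : Fin N → ℝ) (hx : |x k| = 1) :
    |act (refl (ev k)) x ⬝ᵥ Jv lam U (act (refl (ev k)) x) - x ⬝ᵥ Jv lam U x| ≤
      4 * |Jv lam U x k| + 4 * C := by
  have hS : act (refl (ev k)) x = x - (2 * x k) • ev k := by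
    rw [act_refl, ev_norm, ev_dot, div_one]
  have e : act (refl (ev k)) x ⬝ᵥ Jv lam U (act (refl (ev k)) x) - x ⬝ᵥ Jv lam U x =
      -(4 * x k * Jv lam U x k) + 4 * x k ^ 2 * (ev k ⬝ᵥ Jv lam U (ev k)) := by
    rw [hS]
    simp only [Jv_sub, Jv_smul, sub_dotProduct, dotProduct_sub, smul_dotProduct, dotProduct_smul,
      smul_eq_mul]
    rw [Jv_symm lam U x (ev k), dot_ev, ev_dot k (Jv lam U x)]
    ring
  have hq := quad_abs_le hC U (ev k)
  rw [ev_norm, mul_one] at hq
  have hx2 : x k ^ 2 = 1 := by rw [← sq_abs, hx, one_pow]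
  rw [e]
  refine (abs_add_le _ _).trans (add_le_add ?_ ?_)
  · rw [abs_neg, abs_mul, abs_mul, hx, mul_one, abs_of_pos (four_pos : (0 : ℝ) < 4)]
  · rw [hx2, mul_one, abs_mul, abs_of_pos (four_pos : (0 : ℝ) < 4)]
    gcongr

theorem abs_entry_le {v : Fin N → ℝ} (hv : v ⬝ᵥ v = 1) (k : Fin N) : |v k| ≤ 1 := by
  have h := dot_sq_le (ev k) v
  rw [ev_dot, ev_norm, hv, mul_one] at h
  exact (sq_le_one_iff_abs_le_one _).1 h

theorem cross_bound {lam : Fin N → ℝ} {C : ℝ} (hC : ∀ i, |lam i| ≤ C) (U : OG N)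
    (k : Fin N) (v : Fin N → ℝ) (hv : v ⬝ᵥ v = 1) (c : ℝ) (hc : |c| ≤ 3) (s : Fin N → Bool) :
    |(v + c • ev k) ⬝ᵥ spin s| ≤ |v ⬝ᵥ spin s| + 3 ∧
    |(v + c • ev k) ⬝ᵥ act (refl (ev k)) (spin s)| ≤ |v ⬝ᵥ spin s| + 11 ∧
    |(v + c • ev k) ⬝ᵥ Jv lam U (spin s)| ≤
      |v ⬝ᵥ Jv lam U (spin s)| + 3 * |Jv lam U (spin s) k| ∧
    |(v + c • ev k) ⬝ᵥ Jv lam U (act (refl (ev k)) (spin s))| ≤
      |v ⬝ᵥ Jv lam U (spin s)| + 3 * |Jv lam U (spin s) k| + 8 * C := by
  set w := v + c • ev k with hw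
  have hC0 : 0 ≤ C := (abs_nonneg _).trans (hC k)
  have hdot : ∀ x : Fin N → ℝ, w ⬝ᵥ x = v ⬝ᵥ x + c * x k := fun x => by
    rw [hw, add_dotProduct, smul_dotProduct, ev_dot, smul_eq_mul]
  have hS : act (refl (ev k)) (spin s) = spin s - (2 * spin s k) • ev k := by
    rw [act_refl, ev_norm, ev_dot, div_one]
  have hwk : |w k| ≤ 4 := by
    simp [hw, ev]
    exact (abs_add_le _ _).trans (by linarith [abs_entry_le hv k])
  have h1 : |w ⬝ᵥ spin s| ≤ |v ⬝ᵥ spin s| + 3 := by
    rw [hdot]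
    refine (abs_add_le _ _).trans (add_le_add le_rfl ?_)
    rw [abs_mul, spin_abs, mul_one]; exact hc
  have h3 : |w ⬝ᵥ Jv lam U (spin s)| ≤
      |v ⬝ᵥ Jv lam U (spin s)| + 3 * |Jv lam U (spin s) k| := by
    rw [hdot]
    refine (abs_add_le _ _).trans (add_le_add le_rfl ?_)
    rw [abs_mul]; gcongr
  refine ⟨h1, ?_, h3, ?_⟩
  · rw [hS, dotProduct_sub, dotProduct_smul, dot_ev, smul_eq_mul]
    refine (abs_sub _ _).trans ?_
    rw [abs_mul, abs_mul, spin_abs, abs_of_pos (two_pos : (0 : ℝ) < 2)]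
    linarith
  · rw [hS, Jv_sub, Jv_smul, dotProduct_sub, dotProduct_smul, smul_eq_mul]
    refine (abs_sub _ _).trans ?_
    rw [abs_mul, abs_mul, spin_abs, abs_of_pos (two_pos : (0 : ℝ) < 2)]
    have hww : w ⬝ᵥ w ≤ 4 ^ 2 := by
      have e : w ⬝ᵥ w = v ⬝ᵥ v + 2 * c * v k + c ^ 2 := by
        rw [hdot w, hw, dotProduct_add, dotProduct_smul, dot_ev]
        simp [ev]; ring
      have := abs_le.1 (abs_entry_le hv k)
      have := abs_le.1 hc
      rw [e, hv]; nlinarith
    have h5 : |w ⬝ᵥ Jv lam U (ev k)| ≤ 4 * C := by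
      have h := (dot_sq_le w (Jv lam U (ev k))).trans
        (mul_le_mul hww (Jv_norm_le hC U (ev k))
          (Finset.sum_nonneg fun i _ => mul_self_nonneg _) (by norm_num))
      rw [ev_norm] at h
      refine abs_le_of_sq_le_sq (h.trans (le_of_eq (by ring))) (by positivity)
    linarith

theorem combine {a b c C d : ℝ}
    (h : |d| ≤ 2 * (|a| + 11) * (|b| + 3 * |c| + 8 * C) + 2 * C * (|a| + 11) ^ 2 +
      4 * |c| + 4 * C) :
    d ^ 2 ≤ 10000000 * ((1 + a ^ 2) * (b ^ 2 + c ^ 2 + C ^ 2 * (1 + a ^ 2))) := by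
  set A := |a| + 11
  set B := |b| + 3 * |c| + 8 * C
  have hA : A ^ 2 ≤ 244 * (1 + a ^ 2) := by nlinarith [sq_nonneg (|a| - 11), sq_abs a]
  have hB : B ^ 2 ≤ 3 * (b ^ 2 + 9 * c ^ 2 + 64 * C ^ 2) := by
    nlinarith [sq_nonneg (|b| - 3 * |c|), sq_nonneg (|b| - 8 * C), sq_nonneg (3 * |c| - 8 * C),
      sq_abs b, sq_abs c]
  have h1 : d ^ 2 ≤ (2 * A * B + 2 * C * A ^ 2 + 4 * |c| + 4 * C) ^ 2 := by
    rw [← sq_abs d]; exact pow_le_pow_left₀ (abs_nonneg _) h 2
  have h2 : (2 * A * B + 2 * C * A ^ 2 + 4 * |c| + 4 * C) ^ 2 ≤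
      4 * (4 * (A ^ 2 * B ^ 2) + 4 * C ^ 2 * (A ^ 2) ^ 2 + 16 * c ^ 2 + 16 * C ^ 2) := by
    nlinarith [sq_nonneg (2 * A * B - 2 * C * A ^ 2), sq_nonneg (2 * A * B - 4 * |c|),
      sq_nonneg (2 * A * B - 4 * C), sq_nonneg (2 * C * A ^ 2 - 4 * |c|),
      sq_nonneg (2 * C * A ^ 2 - 4 * C), sq_nonneg (4 * |c| - 4 * C), sq_abs c]
  have h3 : A ^ 2 * B ^ 2 ≤ 732 * ((1 + a ^ 2) * (b ^ 2 + 9 * c ^ 2 + 64 * C ^ 2)) := by
    calc A ^ 2 * B ^ 2 ≤ (244 * (1 + a ^ 2)) * (3 * (b ^ 2 + 9 * c ^ 2 + 64 * C ^ 2)) :=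
          mul_le_mul hA hB (sq_nonneg _) (by positivity)
      _ = _ := by ring
  have h4 : C ^ 2 * (A ^ 2) ^ 2 ≤ C ^ 2 * (244 * (1 + a ^ 2)) ^ 2 :=
    mul_le_mul_of_nonneg_left (pow_le_pow_left₀ (sq_nonneg _) hA 2) (sq_nonneg C)
  have p1 : 0 ≤ a ^ 2 * c ^ 2 := by positivity
  have p2 : 0 ≤ a ^ 2 * b ^ 2 := by positivity
  have p3 : 0 ≤ a ^ 2 * C ^ 2 := by positivity
  have p4 : 0 ≤ a ^ 2 * a ^ 2 * C ^ 2 := by positivity
  nlinarith [h1, h2, h3, h4, p1, p2, p3, p4, sq_nonneg b, sq_nonneg c, sq_nonneg C]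

theorem delta_sq_le {lam : Fin N → ℝ} {C : ℝ} (hC : ∀ i, |lam i| ≤ C) (k : Fin N) (U g : OG N)
    (s : Fin N → Bool) (M : OG N) (hM : M = house k g⁻¹ ∨ M = (house k g⁻¹)⁻¹) :
    (act M (spin s) ⬝ᵥ Jv lam U (act M (spin s)) - en lam U s) ^ 2 ≤ dom C k lam U g s := by
  set v := act g⁻¹ (ev k) with hv
  have hvv : v ⬝ᵥ v = 1 := by rw [hv, act_dot, ev_norm]
  have hC0 : 0 ≤ C := (abs_nonneg _).trans (hC k)
  have hvs : v ⬝ᵥ spin s = act g (spin s) k := col_dot k g _
  have hvj : v ⬝ᵥ Jv lam U (spin s) = act g (Jv lam U (spin s)) k := col_dot k g _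
  have hvk := abs_le.1 (abs_entry_le hvv k)
  refine combine ?_
  rw [← hvs, ← hvj, en]
  set a := v ⬝ᵥ spin s
  set b := v ⬝ᵥ Jv lam U (spin s)
  set c := Jv lam U (spin s) k
  have good : ∀ c0 : ℝ, |c0| ≤ 3 → 2 ≤ (v + c0 • ev k) ⬝ᵥ (v + c0 • ev k) →
      |act (refl (v + c0 • ev k)) (spin s) ⬝ᵥ
          Jv lam U (act (refl (v + c0 • ev k)) (spin s)) - spin s ⬝ᵥ Jv lam U (spin s)| ≤
        2 * (|a| + 11) * (|b| + 3 * |c| + 8 * C) + 2 * C * (|a| + 11) ^ 2 + 4 * |c| + 4 * C ∧
      |act (refl (v + c0 • ev k) * refl (ev k)) (spin s) ⬝ᵥ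
          Jv lam U (act (refl (v + c0 • ev k) * refl (ev k)) (spin s)) -
            spin s ⬝ᵥ Jv lam U (spin s)| ≤
        2 * (|a| + 11) * (|b| + 3 * |c| + 8 * C) + 2 * C * (|a| + 11) ^ 2 + 4 * |c| + 4 * C := by
    intro c0 hc0 hw
    obtain ⟨b1, b2, b3, b4⟩ := cross_bound hC U k v hvv c0 hc0 s
    have r1 := refl_quad_le hC U _ (spin s) hw
    have r2 := refl_quad_le hC U _ (act (refl (ev k)) (spin s)) hw
    have r3 := flip_quad_le hC U k (spin s) (spin_abs s k)
    constructor
    · refine r1.trans ?_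
      rw [← sq_abs ((v + c0 • ev k) ⬝ᵥ spin s)]
      calc _ ≤ 2 * (|a| + 11) * (|b| + 3 * |c| + 8 * C) + 2 * C * (|a| + 11) ^ 2 := by
            gcongr <;> linarith
        _ ≤ _ := by linarith [abs_nonneg c]
    · rw [act_mul]
      refine (abs_sub_le _ (act (refl (ev k)) (spin s) ⬝ᵥ
        Jv lam U (act (refl (ev k)) (spin s))) _).trans ?_
      refine (add_le_add r2 r3).trans ?_
      rw [← sq_abs ((v + c0 • ev k) ⬝ᵥ act (refl (ev k)) (spin s))]
      have : 2 * |(v + c0 • ev k) ⬝ᵥ act (refl (ev k)) (spin s)| *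
            |(v + c0 • ev k) ⬝ᵥ Jv lam U (act (refl (ev k)) (spin s))| +
          2 * C * |(v + c0 • ev k) ⬝ᵥ act (refl (ev k)) (spin s)| ^ 2 ≤
          2 * (|a| + 11) * (|b| + 3 * |c| + 8 * C) + 2 * C * (|a| + 11) ^ 2 := by
        gcongr
      linarith
  have hnorm : ∀ c0 : ℝ, (v + c0 • ev k) ⬝ᵥ (v + c0 • ev k) = 1 + 2 * c0 * v k + c0 ^ 2 := by
    intro c0
    rw [add_dotProduct, dotProduct_add, dotProduct_add, dotProduct_smul, smul_dotProduct,
      smul_dotProduct, dotProduct_smul, hvv, dot_ev, ev_dot, ev_norm]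
    simp only [smul_eq_mul]; ring
  by_cases hneg : v k ≤ 0
  · have hH : house k g⁻¹ = refl (v + (-1 : ℝ) • ev k) := by
      rw [house, if_pos hneg]
      rw [show ev k - v = -(v + (-1 : ℝ) • ev k) by funext i; simp; ring, refl_neg]
    have hMe : M = refl (v + (-1 : ℝ) • ev k) := by
      rcases hM with h | h
      · rw [h, hH]
      · rw [h, hH, refl_inv]
    rw [hMe]
    exact (good (-1) (by norm_num) (by rw [hnorm]; linarith)).1
  · have hH : house k g⁻¹ = refl (v + (1 : ℝ) • ev k) * refl (ev k) := by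
      rw [house, if_neg hneg, one_smul, add_comm v]
    rcases hM with h | h
    · rw [h, hH]
      exact (good 1 (by norm_num) (by rw [hnorm]; linarith [not_le.1 hneg])).2
    · rw [h, hH, _root_.mul_inv_rev, refl_inv, refl_inv, refl_act_orth]
      have e : act (refl (ev k)) (v + (1 : ℝ) • ev k) = v + (-1 - 2 * v k) • ev k := by
        rw [act_refl, ev_norm, ev_dot]
        funext i
        simp [ev]
        ring
      rw [e]
      refine (good (-1 - 2 * v k) (abs_le.2 ⟨by linarith, by linarith⟩) ?_).2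
      rw [hnorm]
      linarith [not_le.1 hneg]

theorem pressure_diff_sq_le (β : ℝ) {lam : Fin N → ℝ} {C : ℝ} (hC : ∀ i, |lam i| ≤ C)
    (k : Fin N) (U g : OG N) :
    (pressure β lam U - pressure β lam (U * step k g)) ^ 2 ≤
      2 * (β / 2 / N) ^ 2 * (gib β lam U (dom C k lam U g) +
        gib β lam (U * step k g) (dom C k lam (U * step k g) g)) := by
  set V := U * step k g with hV
  set Δ := fun s => en lam U s - en lam V s with hΔ
  set Δ' := fun s => en lam V s - en lam U s with hΔ'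
  have h1 := pressure_tangent β lam lam V U
  have h2 := pressure_tangent β lam lam U V
  have hd1 : ∀ s, Δ s ^ 2 ≤ dom C k lam U g s := fun s => by
    have h := delta_sq_le hC k U g s _ (Or.inr rfl)
    simp only [hΔ, hV, en_mul_right lam U (step k g)]
    unfold step
    linarith [show (en lam U s - act (house k g⁻¹)⁻¹ (spin s) ⬝ᵥ
      Jv lam U (act (house k g⁻¹)⁻¹ (spin s))) ^ 2 =
      (act (house k g⁻¹)⁻¹ (spin s) ⬝ᵥ Jv lam U (act (house k g⁻¹)⁻¹ (spin s)) - en lam U s) ^ 2
      by ring]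
  have hd2 : ∀ s, Δ' s ^ 2 ≤ dom C k lam V g s := fun s => by
    have h := delta_sq_le hC k V g s _ (Or.inl rfl)
    have hU : U = V * house k g⁻¹ := by simp [hV, step]
    rw [← en_mul_right, ← hU] at h
    simp only [hΔ']
    linarith [show (en lam V s - en lam U s) ^ 2 = (en lam U s - en lam V s) ^ 2 by ring]
  have b1 : (β / 2 / N * gib β lam U Δ) ^ 2 ≤ (β / 2 / N) ^ 2 * gib β lam U (dom C k lam U g) := by
    rw [mul_pow]
    exact mul_le_mul_of_nonneg_left ((gib_sq_le β lam U Δ).trans (gib_mono β lam U hd1))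
      (sq_nonneg _)
  have b2 : (β / 2 / N * gib β lam V Δ') ^ 2 ≤
      (β / 2 / N) ^ 2 * gib β lam V (dom C k lam V g) := by
    rw [mul_pow]
    exact mul_le_mul_of_nonneg_left ((gib_sq_le β lam V Δ').trans (gib_mono β lam V hd2))
      (sq_nonneg _)
  have h0 : 0 ≤ gib β lam U (dom C k lam U g) :=
    gib_nonneg β lam U fun s => (sq_nonneg _).trans (hd1 s)
  have h0' : 0 ≤ gib β lam V (dom C k lam V g) :=
    gib_nonneg β lam V fun s => (sq_nonneg _).trans (hd2 s)
  rcases le_total (pressure β lam V) (pressure β lam U) with h | h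
  · have hb : (pressure β lam U - pressure β lam V) ^ 2 ≤ (β / 2 / N * gib β lam U Δ) ^ 2 :=
      pow_le_pow_left₀ (by linarith) h1 2
    nlinarith [mul_nonneg (sq_nonneg (β / 2 / N)) h0, mul_nonneg (sq_nonneg (β / 2 / N)) h0']
  · have hb : (pressure β lam V - pressure β lam U) ^ 2 ≤ (β / 2 / N * gib β lam V Δ') ^ 2 :=
      pow_le_pow_left₀ (by linarith) h2 2
    nlinarith [mul_nonneg (sq_nonneg (β / 2 / N)) h0, mul_nonneg (sq_nonneg (β / 2 / N)) h0']

theorem continuous_act2 {X : Type*} [TopologicalSpace X] {u : X → OG N} {x : X → Fin N → ℝ}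
    (hu : Continuous u) (hx : Continuous x) : Continuous fun z => act (u z) (x z) :=
  Continuous.matrix_mulVec (continuous_subtype_val.comp hu) hx

theorem continuous_gib_dom (β : ℝ) (lam : Fin N → ℝ) (C : ℝ) (k : Fin N) :
    Continuous fun p : OG N × OG N => gib β lam p.1 (dom C k lam p.1 p.2) := by
  refine continuous_gib β lam continuous_fst fun s => ?_
  unfold dom
  have h1 : Continuous fun p : OG N × OG N => act p.2 (spin s) k :=
    (continuous_apply k).comp ((continuous_act _).comp continuous_snd)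
  have h2 : Continuous fun p : OG N × OG N => Jv lam p.1 (spin s) :=
    (continuous_Jv lam _).comp continuous_fst
  have h3 : Continuous fun p : OG N × OG N => act p.2 (Jv lam p.1 (spin s)) k :=
    (continuous_apply k).comp (continuous_act2 continuous_snd h2)
  exact continuous_const.mul ((continuous_const.add (h1.pow 2)).mul
    (((h3.pow 2).add (((continuous_apply k).comp h2).pow 2)).add
      (continuous_const.mul (continuous_const.add (h1.pow 2)))))

theorem dom_mean_le {lam : Fin N → ℝ} {C : ℝ} (hC : ∀ i, |lam i| ≤ C) (k : Fin N) (U : OG N)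
    (s : Fin N → Bool) :
    ∫ g, dom C k lam U g s ∂(mk N (k.val + 1)) ≤ 10000000 *
      ((2 + 3 * C ^ 4 + 8 * C ^ 2) * ((N : ℝ) / ((k.val : ℝ) + 1)) +
        3 * Jv lam U (spin s) k ^ 2) := by
  set t := (N : ℝ) / ((k.val : ℝ) + 1) with ht
  have hN : ((k.val : ℝ) + 1) ≤ N := by exact_mod_cast k.isLt
  have ht1 : 1 ≤ t := by
    rw [ht, le_div_iff₀ (by positivity), one_mul]; exact hN
  have ht0 : 0 < t := lt_of_lt_of_le one_pos ht1
  set A := fun g : OG N => act g (spin s) k with hA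
  set B := fun g : OG N => act g (Jv lam U (spin s)) k with hB
  set c := Jv lam U (spin s) k
  have hcA : Continuous A := (continuous_apply k).comp (continuous_act _)
  have hcB : Continuous B := (continuous_apply k).comp (continuous_act _)
  have hpt : ∀ g, dom C k lam U g s ≤ 10000000 *
      ((t / 2 + 3 * c ^ 2 / 2 + 2 * C ^ 2) + (t / 2 + c ^ 2 / 2 + 2 * C ^ 2) * A g ^ 4 +
        B g ^ 4 / t) := by
    intro g
    unfold dom
    refine mul_le_mul_of_nonneg_left ?_ (by norm_num)
    have e1 : B g ^ 2 ≤ (t + B g ^ 4 / t) / 2 := by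
      have h := div_nonneg (sq_nonneg (t - B g ^ 2)) ht0.le
      have e : (t - B g ^ 2) ^ 2 / t = t - 2 * B g ^ 2 + B g ^ 4 / t := by field_simp; ring
      rw [e] at h; linarith
    have e2 : A g ^ 2 * B g ^ 2 ≤ (t * A g ^ 4 + B g ^ 4 / t) / 2 := by
      have h := div_nonneg (sq_nonneg (t * A g ^ 2 - B g ^ 2)) ht0.le
      have e : (t * A g ^ 2 - B g ^ 2) ^ 2 / t =
          t * A g ^ 4 - 2 * (A g ^ 2 * B g ^ 2) + B g ^ 4 / t := by field_simp; ring
      rw [e] at h; linarith
    have e3 : A g ^ 2 ≤ (1 + A g ^ 4) / 2 := by nlinarith [sq_nonneg (A g ^ 2 - 1)]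
    change (1 + A g ^ 2) * (B g ^ 2 + c ^ 2 + C ^ 2 * (1 + A g ^ 2)) ≤ _
    nlinarith [mul_le_mul_of_nonneg_left e3 (sq_nonneg c),
      mul_le_mul_of_nonneg_left e3 (sq_nonneg C)]
  have i1 : Integrable (fun g => dom C k lam U g s) (mk N (k.val + 1)) := by
    refine integrable_cont ?_
    unfold dom
    exact continuous_const.mul ((continuous_const.add (hcA.pow 2)).mul
      (((hcB.pow 2).add continuous_const).add
        (continuous_const.mul (continuous_const.add (hcA.pow 2)))))
  have iA : Integrable (fun g => A g ^ 4) (mk N (k.val + 1)) := integrable_cont (hcA.pow 4)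
  have iB : Integrable (fun g => B g ^ 4 / t) (mk N (k.val + 1)) :=
    integrable_cont ((hcB.pow 4).div_const t)
  refine (integral_mono i1 ?_ hpt).trans ?_
  · exact (((integrable_const _).add (iA.const_mul _)).add iB).const_mul _
  rw [integral_const_mul]
  refine mul_le_mul_of_nonneg_left ?_ (by norm_num)
  rw [integral_add (f := fun g => t / 2 + 3 * c ^ 2 / 2 + 2 * C ^ 2 +
      (t / 2 + c ^ 2 / 2 + 2 * C ^ 2) * A g ^ 4) ((integrable_const _).add (iA.const_mul _)) iB,
    integral_add (integrable_const _) (iA.const_mul _), integral_const_mul, integral_div,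
    integral_const]
  simp only [probReal_univ, smul_eq_mul, one_mul]
  have hAm : ∫ g, A g ^ 4 ∂(mk N (k.val + 1)) ≤ 3 := fourth_spin k s
  have hBm : (∫ g, B g ^ 4 ∂(mk N (k.val + 1))) / t ≤ 3 * C ^ 4 * t := by
    rw [div_le_iff₀ ht0]
    refine (fourth_field k hC U s).trans (le_of_eq ?_)
    rw [ht]; field_simp
  have hco : 0 ≤ t / 2 + c ^ 2 / 2 + 2 * C ^ 2 := by positivity
  nlinarith [mul_le_mul_of_nonneg_left hAm hco, mul_le_mul_of_nonneg_left ht1 (sq_nonneg C)]

theorem gib_dom_mean_le (β : ℝ) {lam : Fin N → ℝ} {C : ℝ} (hC : ∀ i, |lam i| ≤ C) (k : Fin N) :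
    ∫ U, ∫ g, gib β lam U (dom C k lam U g) ∂(mk N (k.val + 1)) ∂(orthHaar N) ≤
      10000000 * (2 + 3 * C ^ 4 + 11 * C ^ 2) * ((N : ℝ) / ((k.val : ℝ) + 1)) := by
  set t := (N : ℝ) / ((k.val : ℝ) + 1) with ht
  have hN : ((k.val : ℝ) + 1) ≤ N := by exact_mod_cast k.isLt
  have ht1 : 1 ≤ t := by rw [ht, le_div_iff₀ (by positivity), one_mul]; exact hN
  set c2 := fun U : OG N => gib β lam U (fun s => Jv lam U (spin s) k ^ 2) with hc2
  have hcont : Continuous c2 := continuous_gib β lam continuous_id fun s =>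
    ((continuous_apply k).comp (continuous_Jv lam _)).pow 2
  have hpt : ∀ U, ∫ g, gib β lam U (dom C k lam U g) ∂(mk N (k.val + 1)) ≤
      10000000 * ((2 + 3 * C ^ 4 + 8 * C ^ 2) * t + 3 * c2 U) := by
    intro U
    have e : ∫ g, gib β lam U (dom C k lam U g) ∂(mk N (k.val + 1)) =
        gib β lam U (fun s => ∫ g, dom C k lam U g s ∂(mk N (k.val + 1))) := by
      simp only [gib]
      rw [integral_div, integral_finsetSum]
      · simp only [integral_const_mul]
      · intro s _
        refine Integrable.const_mul (integrable_cont ?_) _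
        unfold dom
        exact continuous_const.mul ((continuous_const.add
          (((continuous_apply k).comp (continuous_act _)).pow 2)).mul
          (((((continuous_apply k).comp (continuous_act _)).pow 2).add continuous_const).add
            (continuous_const.mul (continuous_const.add
              (((continuous_apply k).comp (continuous_act _)).pow 2)))))
    rw [e]
    refine (gib_mono β lam U fun s => dom_mean_le hC k U s).trans (le_of_eq ?_)
    rw [gib_const_mul, gib_add, gib_const, gib_const_mul]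
  have hi : Integrable (fun U => ∫ g, gib β lam U (dom C k lam U g) ∂(mk N (k.val + 1)))
      (orthHaar N) := by
    obtain ⟨B, hB⟩ := isCompact_univ.exists_bound_of_continuousOn
      (continuous_gib_dom β lam C k).continuousOn
    exact integrable_of_abs_le
      (continuous_gib_dom β lam C k).measurable.stronglyMeasurable.integral_prod_right'.measurable
      B fun U => abs_integral_le_of B fun g => hB (U, g) (Set.mem_univ _)
  refine (integral_mono hi ?_ hpt).trans ?_
  · exact integrable_cont (continuous_const.mul (continuous_const.add (continuous_const.mul hcont)))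
  rw [integral_const_mul, integral_add (integrable_const _) ((integrable_cont hcont).const_mul 3),
    integral_const, integral_const_mul]
  simp only [probReal_univ, smul_eq_mul, one_mul]
  rw [mul_assoc]
  refine mul_le_mul_of_nonneg_left ?_ (by norm_num)
  have h := field_sq_mean_le β hC k
  nlinarith [h, mul_le_mul_of_nonneg_left ht1 (sq_nonneg C)]

/-- The mean of the dominating quantity, as a function of two rotations. -/
noncomputable def domG (β C : ℝ) (k : Fin N) (lam : Fin N → ℝ) (p : OG N × OG N) : ℝ :=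
  gib β lam p.1 (dom C k lam p.1 p.2)

theorem domG_shift_measurable (β C : ℝ) (k : Fin N) (lam : Fin N → ℝ) :
    Measurable fun p : OG N × OG N => domG β C k lam (p.1 * step k p.2, p.2) :=
  (continuous_gib_dom β lam C k).measurable.comp
    ((measurable_fst.mul ((measurable_step k).comp measurable_snd)).prodMk measurable_snd)

theorem inner_bound (β : ℝ) {lam : Fin N → ℝ} {C : ℝ} (hC : ∀ i, |lam i| ≤ C) (k : Fin N)
    (U : OG N) :
    ∫ g, (pressure β lam U - pressure β lam (U * step k g)) ^ 2 ∂(mk N (k.val + 1)) ≤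
      2 * (β / 2 / N) ^ 2 * ((∫ g, domG β C k lam (U, g) ∂(mk N (k.val + 1))) +
        ∫ g, domG β C k lam (U * step k g, g) ∂(mk N (k.val + 1))) := by
  have hGc : Continuous (domG β C k lam) := continuous_gib_dom β lam C k
  obtain ⟨B, hB⟩ := isCompact_univ.exists_bound_of_continuousOn hGc.continuousOn
  obtain ⟨Bp, hBp⟩ := exists_abs_bound (continuous_pressure β lam)
  have hb : ∀ g, |(pressure β lam U - pressure β lam (U * step k g)) ^ 2| ≤ (2 * Bp) ^ 2 :=
    fun g => by
      rw [abs_pow]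
      exact pow_le_pow_left₀ (abs_nonneg _)
        ((abs_sub _ _).trans (by linarith [hBp U, hBp (U * step k g)])) 2
  have hm : Measurable fun g => (pressure β lam U - pressure β lam (U * step k g)) ^ 2 :=
    (measurable_const.sub ((continuous_pressure β lam).measurable.comp
      ((measurable_step k).const_mul U))).pow_const 2
  have j1 : Integrable (fun g => domG β C k lam (U, g)) (mk N (k.val + 1)) :=
    integrable_cont (hGc.comp (Continuous.prodMk_right U))
  have j2 : Integrable (fun g => domG β C k lam (U * step k g, g)) (mk N (k.val + 1)) :=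
    integrable_of_abs_le (f := fun g => domG β C k lam (U * step k g, g))
      (hGc.measurable.comp (((measurable_step k).const_mul U).prodMk measurable_id)) B
      fun g => hB (U * step k g, g) (Set.mem_univ _)
  rw [← integral_add j1 j2, ← integral_const_mul]
  refine integral_mono (μ := mk N (k.val + 1))
    (f := fun g => (pressure β lam U - pressure β lam (U * step k g)) ^ 2)
    (g := fun g => 2 * (β / 2 / N) ^ 2 *
      (domG β C k lam (U, g) + domG β C k lam (U * step k g, g)))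
    (integrable_of_abs_le hm _ hb) ((j1.add j2).const_mul _) fun g => ?_
  exact pressure_diff_sq_le β hC k U g

theorem step_bound (β : ℝ) {lam : Fin N → ℝ} {C : ℝ} (hC : ∀ i, |lam i| ≤ C) (k : Fin N) :
    ∫ U, ∫ g, (pressure β lam U - pressure β lam (U * step k g)) ^ 2
        ∂(mk N (k.val + 1)) ∂(orthHaar N) ≤
      10000000 * β ^ 2 * (2 + 3 * C ^ 4 + 11 * C ^ 2) * (((k.val : ℝ) + 1)⁻¹ / N) := by
  have hGc : Continuous (domG β C k lam) := continuous_gib_dom β lam C k
  have hGm := hGc.measurable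
  have hmV := domG_shift_measurable β C k lam
  obtain ⟨B, hB⟩ := isCompact_univ.exists_bound_of_continuousOn hGc.continuousOn
  have hB' : ∀ p, |domG β C k lam p| ≤ B := fun p => hB p (Set.mem_univ _)
  have i1 : Integrable (fun U => ∫ g, domG β C k lam (U, g) ∂(mk N (k.val + 1))) (orthHaar N) :=
    integrable_of_abs_le hGm.stronglyMeasurable.integral_prod_right'.measurable
      B fun U => abs_integral_le_of B fun g => hB' _
  have i2 : Integrable (fun U => ∫ g, domG β C k lam (U * step k g, g) ∂(mk N (k.val + 1)))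
      (orthHaar N) :=
    integrable_of_abs_le hmV.stronglyMeasurable.integral_prod_right'.measurable
      B fun U => abs_integral_le_of B fun g => hB' _
  obtain ⟨Bp, hBp⟩ := exists_abs_bound (continuous_pressure β lam)
  have hpm := (measurable_jump_arg k (continuous_pressure β lam)).pow_const 2
  have i0 : Integrable (fun U => ∫ g, (pressure β lam U - pressure β lam (U * step k g)) ^ 2
      ∂(mk N (k.val + 1))) (orthHaar N) :=
    integrable_of_abs_le hpm.stronglyMeasurable.integral_prod_right'.measurable ((2 * Bp) ^ 2)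
      fun U => abs_integral_le_of _ fun g => by
        rw [abs_pow]
        exact pow_le_pow_left₀ (abs_nonneg _)
          ((abs_sub _ _).trans (by linarith [hBp U, hBp (U * step k g)])) 2
  have hshift : ∫ U, ∫ g, domG β C k lam (U * step k g, g) ∂(mk N (k.val + 1)) ∂(orthHaar N) =
      ∫ U, ∫ g, domG β C k lam (U, g) ∂(mk N (k.val + 1)) ∂(orthHaar N) := by
    rw [integral_integral_swap (integrable_of_abs_le
        (f := uncurry fun U g => domG β C k lam (U * step k g, g)) hmV B fun p => hB' _),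
      integral_integral_swap (integrable_of_abs_le
        (f := uncurry fun U g => domG β C k lam (U, g)) hGm B fun p => hB' _)]
    exact integral_congr_ae (Filter.Eventually.of_forall fun g =>
      integral_mul_right_eq_self (μ := orthHaar N) (fun U => domG β C k lam (U, g)) (step k g))
  refine (integral_mono i0 ((i1.add i2).const_mul (2 * (β / 2 / N) ^ 2))
    (inner_bound β hC k)).trans ?_
  simp only [Pi.add_apply]
  rw [integral_const_mul, integral_add i1 i2, hshift]
  have hmean : ∫ U, ∫ g, domG β C k lam (U, g) ∂(mk N (k.val + 1)) ∂(orthHaar N) ≤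
      10000000 * (2 + 3 * C ^ 4 + 11 * C ^ 2) * ((N : ℝ) / ((k.val : ℝ) + 1)) :=
    gib_dom_mean_le β hC k
  refine (mul_le_mul_of_nonneg_left (add_le_add hmean hmean) (by positivity)).trans
    (le_of_eq ?_)
  have hN : (N : ℝ) ≠ 0 := by
    have := k.isLt
    exact_mod_cast (show N ≠ 0 by omega)
  field_simp
  ring

/-- The variance bound for the pressure. -/
theorem pressure_variance_le (β : ℝ) {lam : Fin N → ℝ} {C : ℝ} (hC : ∀ i, |lam i| ≤ C) :
    ∫ U, (pressure β lam U - ∫ V, pressure β lam V ∂(orthHaar N)) ^ 2 ∂(orthHaar N) ≤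
      10000000 * β ^ 2 * (2 + 3 * C ^ 4 + 11 * C ^ 2) * ((1 + Real.log N) / N) := by
  refine (variance_le_chain (continuous_pressure β lam)).trans ?_
  refine (Finset.sum_le_sum fun k _ => step_bound β hC k).trans ?_
  rw [← Finset.mul_sum, ← Finset.sum_div]
  refine mul_le_mul_of_nonneg_left (div_le_div_of_nonneg_right ?_ (Nat.cast_nonneg N))
    (by positivity)
  refine le_trans (le_of_eq ?_) (harmonic_le_one_add_log N)
  rw [harmonic, Fin.sum_univ_eq_sum_range (fun i : ℕ => ((i : ℝ) + 1)⁻¹) N]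
  push_cast
  rfl

end Vale.Agent.P166
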